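import Vale.Agent.N265X.Defs
import Vale.Agent.P265W27.Defs

open Set Manifold
open scoped ContDiff

namespace Vale.Agent.N265X

theorem bridge_morse {E B X : Type} [NormedAddCommGroup E] [NormedSpace ℝ E] [TopologicalSpace B]
    (I : ModelWithCorners ℝ E B) [I.Boundaryless] [TopologicalSpace X] [ChartedSpace B X]
    (f : X → ℝ) : IsMorse I f ↔ Vale.Agent.P265.Loc.IsMorse I f := by
  refine and_congr_right fun hf => forall₂_congr fun x _ => ?_
  have h1 : ContDiffAt ℝ ∞ (f ∘ (extChartAt I x).symm) (extChartAt I x x) := by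
    have := (contMDiffAt_iff.1 (hf x)).2
    rw [I.range_eq_univ, contDiffWithinAt_univ] at this
    simpa only [extChartAt_model_space_eq_id, PartialEquiv.refl_coe, Function.id_comp] using this
  have h2 : DifferentiableAt ℝ (fderiv ℝ (f ∘ (extChartAt I x).symm)) (extChartAt I x x) :=
    (h1.fderiv_right (m := 1) (by norm_cast)).differentiableAt one_ne_zero
  have h3 : ∀ v w, fderiv ℝ (fun y => fderiv ℝ (f ∘ (extChartAt I x).symm) y w)
      (extChartAt I x x) v =
      fderiv ℝ (fderiv ℝ (f ∘ (extChartAt I x).symm)) (extChartAt I x x) v w := by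
    intro v w
    rw [fderiv_clm_apply h2 (differentiableAt_const w)]
    simp
  rw [injective_iff_map_eq_zero]
  refine forall_congr' fun v => imp_congr_left ?_
  simp only [h3]
  exact ⟨fun h w => by rw [h]; rfl, fun h => ContinuousLinearMap.ext h⟩

theorem bridge_polar {Z : Type} [AddCommGroup Z] [Module ℝ Z] (Q : QuadraticForm ℝ Z) :
    Q.polarBilin.Nondegenerate ↔ ∀ v, (∀ w, QuadraticMap.polar Q v w = 0) → v = 0 :=
  ⟨fun h => h.1, fun h => ⟨h, fun v hv => h v fun w => by
    rw [QuadraticMap.polar_comm]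
    exact hv w⟩⟩

variable {V : Type} [NormedAddCommGroup V] [NormedSpace ℝ V]
  {M : Type} [TopologicalSpace M] [ChartedSpace V M]

/-- The set whose infimum is `SM V M` is `P265W27.stableCounts V M`. -/
theorem SM_eq : SM V M = sInf (Vale.Agent.P265W27.stableCounts V M) := by
  unfold SM Vale.Agent.P265W27.stableCounts Vale.Agent.P265W27.IsStableMorse
  congr 1
  ext n
  simp only [mem_ofPred_eq, bridge_morse, bridge_polar, and_assoc]
  rfl

end Vale.Agent.N265X
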