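import Mathlib.Analysis.Calculus.DifferentialForm.Basic
import Mathlib.Analysis.Complex.Basic
import Mathlib.Analysis.InnerProductSpace.PiL2
import Mathlib.Geometry.Manifold.ContMDiffMFDeriv
import Mathlib.LinearAlgebra.Eigenspace.Basic
import Mathlib.LinearAlgebra.QuadraticForm.Basic
import Mathlib.Topology.Homotopy.Contractible
import Mathlib.Topology.Instances.AddCircle.Real

/-!
# Stable Morse number, symplectic and Kähler forms, Hamiltonian flows
-/

open Set Manifold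
open scoped ContDiff

noncomputable section

namespace Vale.Agent.N265X

section Morse

variable {E B X : Type} [NormedAddCommGroup E] [NormedSpace ℝ E] [TopologicalSpace B]
  (I : ModelWithCorners ℝ E B) [TopologicalSpace X] [ChartedSpace B X]

/-- The critical points of `f`. -/
def crit (f : X → ℝ) : Set X := {x | mfderiv I 𝓘(ℝ, ℝ) f x = 0}

/-- `f` is smooth and its Hessian (in the chart at the point) is nondegenerate at each critical
point. -/
def IsMorse (f : X → ℝ) : Prop :=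
  ContMDiff I 𝓘(ℝ, ℝ) ∞ f ∧ ∀ x ∈ crit I f, Function.Injective
    (fderiv ℝ (fderiv ℝ (f ∘ (extChartAt I x).symm)) (extChartAt I x x))

end Morse

variable (V : Type) [NormedAddCommGroup V] [NormedSpace ℝ V]
  (M : Type) [TopologicalSpace M] [ChartedSpace V M]

/-- The stable Morse number: the least number of critical points of a Morse function on
`M × ℝ^k`, `k ≥ 0`, which for `k > 0` is a nondegenerate quadratic form `Q(z)` for `|z| ≥ R`. -/
def SM : ℕ :=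
  sInf {n : ℕ | ∃ (k : ℕ) (F : M × EuclideanSpace ℝ (Fin k) → ℝ),
    IsMorse (𝓘(ℝ, V).prod 𝓘(ℝ, EuclideanSpace ℝ (Fin k))) F ∧
    (0 < k → ∃ (Q : QuadraticForm ℝ (EuclideanSpace ℝ (Fin k))) (R : ℝ),
      Q.polarBilin.Nondegenerate ∧ 0 < R ∧ ∀ x z, R ≤ ‖z‖ → F (x, z) = Q z) ∧
    (crit (𝓘(ℝ, V).prod 𝓘(ℝ, EuclideanSpace ℝ (Fin k))) F).encard = n}

/-- Fields of alternating `2`-forms on the tangent spaces. -/
abbrev TwoForm : Type := ∀ x : M, TangentSpace 𝓘(ℝ, V) x [⋀^Fin 2]→L[ℝ] ℝ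

variable {V M}

/-- The form `σ` read in the chart at `x`. -/
def inChart (σ : TwoForm V M) (x : M) (y : V) : V [⋀^Fin 2]→L[ℝ] ℝ :=
  (σ ((chartAt V x).symm y)).compContinuousLinearMap
    (mfderiv 𝓘(ℝ, V) 𝓘(ℝ, V) (chartAt V x).symm y)

/-- `σ` is smooth, closed and nondegenerate. -/
structure IsSymplectic (σ : TwoForm V M) : Prop where
  smooth : ∀ x, ContDiffOn ℝ ∞ (inChart σ x) (chartAt V x).target
  closed : ∀ x, ∀ y ∈ (chartAt V x).target, extDeriv (inChart σ x) y = 0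
  nondeg : ∀ x v, (∀ w, σ x ![v, w] = 0) → v = 0

/-- `H` is smooth on `ℝ/ℤ × M`, and `φ` is the (smooth) flow, `φ⁰ = id`, of the vector field `X_t`
with `σ(X_t, ·) = dH_t`. -/
structure IsHamFlow (σ : TwoForm V M) (H : UnitAddCircle → M → ℝ) (φ : ℝ → M → M) : Prop where
  smoothH : ContMDiff (𝓘(ℝ, ℝ).prod 𝓘(ℝ, V)) 𝓘(ℝ, ℝ) ∞ fun z : ℝ × M => H z.1 z.2
  smooth : ContMDiff (𝓘(ℝ, ℝ).prod 𝓘(ℝ, V)) 𝓘(ℝ, V) ∞ fun z : ℝ × M => φ z.1 z.2
  zero : ∀ x, φ 0 x = x
  ode : ∃ X : ℝ → ∀ x : M, TangentSpace 𝓘(ℝ, V) x,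
    (∀ (t : ℝ) x w, σ x ![X t x, w] = mfderiv 𝓘(ℝ, V) 𝓘(ℝ, ℝ) (H t) x w) ∧
    ∀ t x, HasMFDerivAt 𝓘(ℝ, ℝ) 𝓘(ℝ, V) (φ · x) t ((1 : ℝ →L[ℝ] ℝ).smulRight (X t (φ t x)))

variable (V) in
/-- At no fixed point of `g` is `1` an eigenvalue of the differential. -/
def Nondeg (g : M → M) : Prop :=
  ∀ x, g x = x → ¬ Module.End.HasEigenvalue (R := ℝ) (M := V)
    (mfderiv 𝓘(ℝ, V) 𝓘(ℝ, V) g x).toLinearMap 1

/-- The fixed points of `φ¹` whose loop `t ↦ φᵗ(x)`, `0 ≤ t ≤ 1`, is contractible. -/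
def Fix0 {M : Type} [TopologicalSpace M] (φ : ℝ → M → M) : Set M :=
  {x | φ 1 x = x ∧ ∃ γ : C(UnitAddCircle, M), (∀ t ∈ Icc (0 : ℝ) 1, γ t = φ t x) ∧ γ.Nullhomotopic}

/-- For charts with values in a complex space `V`: `σ` is a symplectic form which is invariant
under multiplication by `i` and has `σ(v, iv) > 0`. On a complex manifold: a Kähler form. -/
structure IsKaehler [SMul ℂ V] (σ : TwoForm V M) : Prop extends IsSymplectic σ where
  inv : ∀ x (v w : V), σ x ![Complex.I • v, Complex.I • w] = σ x ![v, w]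
  pos : ∀ x (v : V), v ≠ 0 → 0 < σ x ![v, Complex.I • v]

end Vale.Agent.N265X
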