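import Vale.Agent.N265X.Kah
import Mathlib.Analysis.InnerProductSpace.PiL2
import Mathlib.Topology.Algebra.Module.FiniteDimension

open scoped ContDiff

namespace Vale.Agent.N265X

variable {E : Type} [NormedAddCommGroup E] [NormedSpace ℝ E]
  {V : Type} [NormedAddCommGroup V] [NormedSpace ℝ V] [NormedSpace ℂ V]

theorem Kah.congr {Z Z' : Set E} {T T' : E → E → Prop} {Ω Ω' : E → E → E → ℝ} (h : Kah Z T Ω V)
    (hZ : Z' ⊆ Z) (hT : ∀ y ∈ Z', ∀ v, T' y v ↔ T y v)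
    (hΩ : ∀ y ∈ Z', ∀ v w, Ω' y v w = Ω y v w) : Kah Z' T' Ω' V := by
  obtain ⟨J, h1, h2, h3, h4⟩ := h
  refine ⟨J, fun y hy v hv => (hT y hy _).2 (h1 y (hZ hy) v ((hT y hy v).1 hv)),
    fun y hy v w hv hw => ?_, fun y hy v hv hv0 => ?_, fun p hp => ?_⟩
  · rw [hΩ y hy, hΩ y hy]
    exact h2 y (hZ hy) v w ((hT y hy v).1 hv) ((hT y hy w).1 hw)
  · rw [hΩ y hy]
    exact h3 y (hZ hy) v ((hT y hy v).1 hv) hv0
  · obtain ⟨ψ, U, hU, hpU, hψ, hi, hJ⟩ := h4 p (hZ hp)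
    exact ⟨ψ, U, hU, hpU, hψ, fun v hv => hi v ((hT p hp v).1 hv),
      fun y hyU hy v hv => hJ y hyU (hZ hy) v ((hT y hy v).1 hv)⟩

theorem Kah.map {Z : Set E} {T : E → E → Prop} {Ω : E → E → E → ℝ} (h : Kah Z T Ω V)
    {V' : Type} [NormedAddCommGroup V'] [NormedSpace ℝ V'] [NormedSpace ℂ V'] (L : V →L[ℝ] V')
    (hL : Function.Injective L) (hI : ∀ v, L (Complex.I • v) = Complex.I • L v) :
    Kah Z T Ω V' := by
  obtain ⟨J, h1, h2, h3, h4⟩ := h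
  refine ⟨J, h1, h2, h3, fun p hp => ?_⟩
  obtain ⟨ψ, U, hU, hpU, hψ, hi, hJ⟩ := h4 p hp
  have hd : ∀ y ∈ U, ∀ v, fderiv ℝ (fun x => L (ψ x)) y v = L (fderiv ℝ ψ y v) := by
    intro y hy v
    have := (L.hasFDerivAt.comp y ((hψ y hy).differentiableAt (by simp)).hasFDerivAt).fderiv
    exact congrArg (fun A : E →L[ℝ] V' => A v) this
  refine ⟨fun x => L (ψ x), U, hU, hpU, fun y hy => L.contDiff.contDiffAt.comp y (hψ y hy),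
    fun v hv h0 => hi v hv (hL ?_), fun y hyU hy v hv => ?_⟩
  · rw [← hd p hpU, h0, map_zero]
  · rw [hd y hyU, hd y hyU, hJ y hyU hy v hv, hI]

theorem Kah.prod {E₂ : Type} [NormedAddCommGroup E₂] [NormedSpace ℝ E₂]
    {V₂ : Type} [NormedAddCommGroup V₂] [NormedSpace ℝ V₂] [NormedSpace ℂ V₂]
    {Z : Set E} {T : E → E → Prop} {Ω : E → E → E → ℝ}
    {Z₂ : Set E₂} {T₂ : E₂ → E₂ → Prop} {Ω₂ : E₂ → E₂ → E₂ → ℝ}
    (h : Kah Z T Ω V) (h₂ : Kah Z₂ T₂ Ω₂ V₂) (h0 : ∀ y w, Ω y 0 w = 0)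
    (h0₂ : ∀ y w, Ω₂ y 0 w = 0) :
    Kah (Z ×ˢ Z₂) (fun y v => T y.1 v.1 ∧ T₂ y.2 v.2)
      (fun y v w => Ω y.1 v.1 w.1 + Ω₂ y.2 v.2 w.2) (V × V₂) := by
  obtain ⟨J, a1, a2, a3, a4⟩ := h
  obtain ⟨J₂, b1, b2, b3, b4⟩ := h₂
  refine ⟨fun y v => (J y.1 v.1, J₂ y.2 v.2),
    fun y hy v hv => ⟨a1 _ hy.1 _ hv.1, b1 _ hy.2 _ hv.2⟩,
    fun y hy v w hv hw => ?_, fun y hy v hv hv0 => ?_, fun p hp => ?_⟩
  · show Ω y.1 (J y.1 v.1) (J y.1 w.1) + Ω₂ y.2 (J₂ y.2 v.2) (J₂ y.2 w.2) = _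
    rw [a2 _ hy.1 _ _ hv.1 hw.1, b2 _ hy.2 _ _ hv.2 hw.2]
  · show 0 < Ω y.1 v.1 (J y.1 v.1) + Ω₂ y.2 v.2 (J₂ y.2 v.2)
    by_cases e1 : v.1 = 0
    · have e2 : v.2 ≠ 0 := fun e2 => hv0 (Prod.ext e1 e2)
      have := b3 _ hy.2 _ hv.2 e2
      rw [e1, h0]
      linarith
    · have p1 := a3 _ hy.1 _ hv.1 e1
      by_cases e2 : v.2 = 0
      · rw [e2, h0₂]
        linarith
      · have := b3 _ hy.2 _ hv.2 e2
        linarith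
  · obtain ⟨ψ, U, hU, hpU, hψ, hi, hJ⟩ := a4 p.1 hp.1
    obtain ⟨φ, W, hW, hpW, hφ, ki, kJ⟩ := b4 p.2 hp.2
    have hd : ∀ y ∈ U ×ˢ W, ∀ v : E × E₂, fderiv ℝ (fun x : E × E₂ => (ψ x.1, φ x.2)) y v =
        (fderiv ℝ ψ y.1 v.1, fderiv ℝ φ y.2 v.2) := by
      intro y hy v
      have c1 := ((hψ y.1 hy.1).differentiableAt (by simp)).hasFDerivAt.comp y
        (hasFDerivAt_fst (𝕜 := ℝ) (p := y))
      have c2 := ((hφ y.2 hy.2).differentiableAt (by simp)).hasFDerivAt.comp y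
        (hasFDerivAt_snd (𝕜 := ℝ) (p := y))
      exact congrArg (fun A : E × E₂ →L[ℝ] V × V₂ => A v) (c1.prodMk c2).fderiv
    refine ⟨fun x => (ψ x.1, φ x.2), U ×ˢ W, hU.prod hW, ⟨hpU, hpW⟩, fun y hy =>
      ((hψ y.1 hy.1).comp y contDiffAt_fst).prodMk ((hφ y.2 hy.2).comp y contDiffAt_snd),
      fun v hv e => ?_, fun y hyU hy v hv => ?_⟩
    · rw [hd p ⟨hpU, hpW⟩] at e
      exact Prod.ext (hi _ hv.1 (congrArg Prod.fst e)) (ki _ hv.2 (congrArg Prod.snd e))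
    · rw [hd y hyU, hd y hyU]
      exact Prod.ext (hJ _ hyU.1 hy.1 _ hv.1) (kJ _ hyU.2 hy.2 _ hv.2)

/-- complex coordinates: `ℂ^n × ℂ` into `ℂ^(n+1)` and `(ℂ × ℂ) × ℂ` into `ℂ^3` -/
theorem exists_succ (n : ℕ) : ∃ L : (EuclideanSpace ℂ (Fin n) × ℂ) →L[ℝ] EuclideanSpace ℂ (Fin (n + 1)),
    Function.Injective L ∧ ∀ v, L (Complex.I • v) = Complex.I • L v := by
  have e : Module.finrank ℂ (EuclideanSpace ℂ (Fin n) × ℂ) =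
      Module.finrank ℂ (EuclideanSpace ℂ (Fin (n + 1))) := by simp
  let A := (ContinuousLinearEquiv.ofFinrankEq e)
  exact ⟨(A : (EuclideanSpace ℂ (Fin n) × ℂ) →L[ℂ] EuclideanSpace ℂ (Fin (n + 1))).restrictScalars ℝ,
    A.injective, fun v => A.map_smul _ v⟩

theorem exists_three : ∃ L : ((ℂ × ℂ) × ℂ) →L[ℝ] EuclideanSpace ℂ (Fin 3),
    Function.Injective L ∧ ∀ v, L (Complex.I • v) = Complex.I • L v := by
  have e : Module.finrank ℂ ((ℂ × ℂ) × ℂ) = Module.finrank ℂ (EuclideanSpace ℂ (Fin 3)) := by simp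
  let A := (ContinuousLinearEquiv.ofFinrankEq e)
  exact ⟨(A : ((ℂ × ℂ) × ℂ) →L[ℂ] EuclideanSpace ℂ (Fin 3)).restrictScalars ℝ,
    A.injective, fun v => A.map_smul _ v⟩

end Vale.Agent.N265X
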