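import Mathlib.Analysis.Calculus.ContDiff.Operations
import Mathlib.Analysis.Complex.Basic

/-!
# Kähler structures on subsets of a vector space, in ambient terms
-/

open scoped ContDiff

namespace Vale.Agent.N265X

variable {E : Type} [NormedAddCommGroup E] [NormedSpace ℝ E]

/-- A smooth map `ψ` to `V` near `p` whose derivative is injective on the tangent space `T p` and,
at the points of `Z` near `p`, turns `J` into multiplication by `i`. -/
def HolChart (Z : Set E) (T : E → E → Prop) (J : E → E → E) (V : Type) [NormedAddCommGroup V]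
    [NormedSpace ℝ V] [NormedSpace ℂ V] (p : E) : Prop :=
  ∃ (ψ : E → V) (U : Set E), IsOpen U ∧ p ∈ U ∧ (∀ y ∈ U, ContDiffAt ℝ ∞ ψ y) ∧
    (∀ v, T p v → fderiv ℝ ψ p v = 0 → v = 0) ∧
    ∀ y ∈ U, y ∈ Z → ∀ v, T y v → fderiv ℝ ψ y (J y v) = Complex.I • fderiv ℝ ψ y v

/-- `Z` with tangent vectors `T` and form `Ω` has a compatible complex structure `J` with
holomorphic coordinates in `V` near every point. -/
def Kah (Z : Set E) (T : E → E → Prop) (Ω : E → E → E → ℝ) (V : Type) [NormedAddCommGroup V]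
    [NormedSpace ℝ V] [NormedSpace ℂ V] : Prop :=
  ∃ J : E → E → E, (∀ y ∈ Z, ∀ v, T y v → T y (J y v)) ∧
    (∀ y ∈ Z, ∀ v w, T y v → T y w → Ω y (J y v) (J y w) = Ω y v w) ∧
    (∀ y ∈ Z, ∀ v, T y v → v ≠ 0 → 0 < Ω y v (J y v)) ∧ ∀ p ∈ Z, HolChart Z T J V p

end Vale.Agent.N265X
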