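import Mathlib.Analysis.Calculus.InverseFunctionTheorem.ContDiff
import Mathlib.Geometry.Manifold.ContMDiffMFDeriv
import Mathlib.Geometry.Manifold.MFDeriv.Atlas
import Mathlib.Geometry.Manifold.MFDeriv.SpecificFunctions
import Mathlib.Analysis.Normed.Module.FiniteDimension

/-!
# Level sets with prescribed local coordinates are manifolds
-/

open Set Manifold Module
open scoped ContDiff Topology

set_option linter.unusedSectionVars false

namespace Vale.Agent.N265X

/-- A level set `{G = 0}` with local coordinates `ψ p` near each of its points `p`. -/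
structure CL (E F V : Type) [NormedAddCommGroup E] [NormedSpace ℝ E]
    [NormedAddCommGroup F] [NormedSpace ℝ F] [NormedAddCommGroup V] [NormedSpace ℝ V] where
  G : E → F
  smooth : ContDiff ℝ ∞ G
  dim : finrank ℝ E = finrank ℝ F + finrank ℝ V
  ψ : E → E → V
  U : E → Set E
  isOpen : ∀ p, G p = 0 → IsOpen (U p)
  mem : ∀ p, G p = 0 → p ∈ U p
  sm : ∀ p, G p = 0 → ∀ y ∈ U p, ContDiffAt ℝ ∞ (ψ p) y
  inj : ∀ p, G p = 0 → ∀ v, fderiv ℝ G p v = 0 → fderiv ℝ (ψ p) p v = 0 → v = 0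

namespace CL

variable {E F V : Type} [NormedAddCommGroup E] [NormedSpace ℝ E]
    [NormedAddCommGroup F] [NormedSpace ℝ F] [NormedAddCommGroup V] [NormedSpace ℝ V]

/-- The level set, as a type. -/
def M (D : CL E F V) : Type := {x : E // D.G x = 0}

variable (D : CL E F V)

/-- The inclusion of the level set in the ambient space. -/
def ι (x : D.M) : E := x.1

instance : MetricSpace D.M := inferInstanceAs (MetricSpace {x : E // D.G x = 0})

theorem G_ι (x : D.M) : D.G (D.ι x) = 0 := x.2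

theorem ι_injective : Function.Injective D.ι := Subtype.val_injective

theorem ext {x y : D.M} (h : D.ι x = D.ι y) : x = y := D.ι_injective h

theorem isEmbedding_ι : Topology.IsEmbedding D.ι := Topology.IsEmbedding.subtypeVal

theorem continuous_ι : Continuous D.ι := continuous_subtype_val

/-- A point of the level set from a point of the ambient space. -/
def pt (x : E) (h : D.G x = 0) : D.M := ⟨x, h⟩

/-- The adapted coordinate map `x ↦ (G x, ψ x)`. -/
def Φ (p : D.M) (x : E) : F × V := (D.G x, D.ψ (D.ι p) x)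

theorem contDiffAt_Φ (p : D.M) {y : E} (hy : y ∈ D.U (D.ι p)) : ContDiffAt ℝ ∞ (D.Φ p) y :=
  D.smooth.contDiffAt.prodMk (D.sm _ (D.G_ι p) y hy)

theorem fderiv_Φ (p : D.M) {y : E} (hy : y ∈ D.U (D.ι p)) (v : E) :
    fderiv ℝ (D.Φ p) y v = (fderiv ℝ D.G y v, fderiv ℝ (D.ψ (D.ι p)) y v) := by
  have h1 : HasFDerivAt D.G (fderiv ℝ D.G y) y :=
    (D.smooth.differentiable (by simp) _).hasFDerivAt
  have h2 : HasFDerivAt (D.ψ (D.ι p)) (fderiv ℝ (D.ψ (D.ι p)) y) y :=
    ((D.sm _ (D.G_ι p) y hy).differentiableAt (by simp)).hasFDerivAt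
  have h3 : HasFDerivAt (D.Φ p) _ y := h1.prodMk h2
  rw [h3.fderiv]
  rfl

variable [FiniteDimensional ℝ E] [FiniteDimensional ℝ F] [FiniteDimensional ℝ V]

theorem exists_lin (p : D.M) :
    ∃ e : E ≃L[ℝ] F × V, (e : E →L[ℝ] F × V) = fderiv ℝ (D.Φ p) (D.ι p) := by
  have hL : Function.Injective (fderiv ℝ (D.Φ p) (D.ι p) : E →ₗ[ℝ] F × V) := by
    rw [← LinearMap.ker_eq_bot, LinearMap.ker_eq_bot']
    intro x hx
    have h1 : fderiv ℝ (D.Φ p) (D.ι p) x = 0 := hx
    rw [D.fderiv_Φ p (D.mem _ (D.G_ι p)), Prod.mk_eq_zero] at h1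
    exact D.inj _ (D.G_ι p) x h1.1 h1.2
  have hdim : finrank ℝ E = finrank ℝ (F × V) := by
    rw [D.dim, Module.finrank_prod]
  refine ⟨(LinearMap.linearEquivOfInjective _ hL hdim).toContinuousLinearEquiv, ?_⟩
  ext x <;> rfl

/-- The derivative of the adapted coordinates at the base point. -/
noncomputable def lin (p : D.M) : E ≃L[ℝ] F × V := Classical.choose (D.exists_lin p)

theorem lin_eq (p : D.M) : (D.lin p : E →L[ℝ] F × V) = fderiv ℝ (D.Φ p) (D.ι p) :=
  Classical.choose_spec (D.exists_lin p)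

theorem hasFDerivAt_Φ_self (p : D.M) :
    HasFDerivAt (D.Φ p) (D.lin p : E →L[ℝ] F × V) (D.ι p) := by
  rw [D.lin_eq]
  exact ((D.contDiffAt_Φ p (D.mem _ (D.G_ι p))).differentiableAt (by simp)).hasFDerivAt

/-- The points where the adapted coordinate map is a local diffeomorphism. -/
def Ω (p : D.M) : Set E := D.U (D.ι p) ∩
  fderiv ℝ (D.Φ p) ⁻¹' range ((↑) : (E ≃L[ℝ] F × V) → E →L[ℝ] F × V)

theorem isOpen_Ω (p : D.M) : IsOpen (D.Ω p) := by
  have h1 : ContDiffOn ℝ ∞ (D.Φ p) (D.U (D.ι p)) :=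
    fun y hy => (D.contDiffAt_Φ p hy).contDiffWithinAt
  exact (h1.continuousOn_fderiv_of_isOpen (D.isOpen _ (D.G_ι p)) (by simp)).isOpen_inter_preimage
    (D.isOpen _ (D.G_ι p)) (ContinuousLinearEquiv.isOpen (𝕜 := ℝ) (E := E) (F := F × V))

/-- The adapted local diffeomorphism of the ambient space. -/
noncomputable def Φh (p : D.M) : OpenPartialHomeomorph E (F × V) :=
  ((D.contDiffAt_Φ p (D.mem _ (D.G_ι p))).toOpenPartialHomeomorph (D.Φ p)
    (D.hasFDerivAt_Φ_self p) (by simp)).restrOpen (D.Ω p) (D.isOpen_Ω p)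

theorem Φh_coe (p : D.M) : ⇑(D.Φh p) = D.Φ p := rfl

theorem mem_Φh_source (p : D.M) : D.ι p ∈ (D.Φh p).source := by
  refine ⟨(D.contDiffAt_Φ p (D.mem _ (D.G_ι p))).mem_toOpenPartialHomeomorph_source
    (D.hasFDerivAt_Φ_self p) (by simp), D.mem _ (D.G_ι p), ?_⟩
  exact ⟨D.lin p, D.lin_eq p⟩

theorem Φh_source_subset (p : D.M) : (D.Φh p).source ⊆ D.Ω p := fun _ h => h.2

theorem contDiffAt_Φh_symm (p : D.M) {y : F × V} (hy : y ∈ (D.Φh p).target) :
    ContDiffAt ℝ ∞ (D.Φh p).symm y := by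
  obtain ⟨hU, e, he⟩ := D.Φh_source_subset p ((D.Φh p).map_target hy)
  refine (D.Φh p).contDiffAt_symm hy (f₀' := e) ?_ (D.contDiffAt_Φ p hU)
  rw [he]
  exact ((D.contDiffAt_Φ p hU).differentiableAt (by simp)).hasFDerivAt

theorem G_Φh_symm (p : D.M) {v : V} (hv : ((0 : F), v) ∈ (D.Φh p).target) :
    D.G ((D.Φh p).symm (0, v)) = 0 :=
  congrArg Prod.fst ((D.Φh p).right_inv hv)

open Classical in
/-- The inverse of the chart at `p`. -/
noncomputable def par (p : D.M) (v : V) : D.M :=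
  if h : D.G ((D.Φh p).symm (0, v)) = 0 then D.pt _ h else p

theorem ι_par (p : D.M) {v : V} (hv : ((0 : F), v) ∈ (D.Φh p).target) :
    D.ι (D.par p v) = (D.Φh p).symm (0, v) := by
  unfold par
  rw [dif_pos (D.G_Φh_symm p hv)]
  rfl

theorem ι_par_mem (p : D.M) {v : V} (hv : ((0 : F), v) ∈ (D.Φh p).target) :
    D.ι (D.par p v) ∈ D.Ω p := by
  rw [D.ι_par p hv]
  exact D.Φh_source_subset p ((D.Φh p).map_target hv)

/-- The chart of the level set at `p`. -/
noncomputable def chart (p : D.M) : OpenPartialHomeomorph D.M V where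
  toFun x := D.ψ (D.ι p) (D.ι x)
  invFun := D.par p
  source := {x | D.ι x ∈ (D.Φh p).source}
  target := {v | ((0 : F), v) ∈ (D.Φh p).target}
  map_source' := by
    intro x hx
    have h := (D.Φh p).map_source hx
    rw [D.Φh_coe, Φ, D.G_ι] at h
    exact h
  map_target' := by
    intro v hv
    change D.ι (D.par p v) ∈ (D.Φh p).source
    rw [D.ι_par p hv]
    exact (D.Φh p).map_target hv
  left_inv' := by
    intro x hx
    apply D.ext
    have h := (D.Φh p).map_source hx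
    rw [D.Φh_coe, Φ, D.G_ι] at h
    rw [D.ι_par p h]
    have h2 := (D.Φh p).left_inv hx
    rwa [D.Φh_coe, Φ, D.G_ι] at h2
  right_inv' := by
    intro v hv
    rw [D.ι_par p hv]
    exact congrArg Prod.snd ((D.Φh p).right_inv hv)
  open_source := (D.Φh p).open_source.preimage D.continuous_ι
  open_target := (D.Φh p).open_target.preimage (continuous_const.prodMk continuous_id)
  continuousOn_toFun := by
    intro x hx
    have h1 : ContinuousAt (D.ψ (D.ι p)) (D.ι x) :=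
      (D.sm _ (D.G_ι p) _ (D.Φh_source_subset p hx).1).continuousAt
    exact (ContinuousAt.comp h1 D.continuous_ι.continuousAt).continuousWithinAt
  continuousOn_invFun := by
    rw [D.isEmbedding_ι.continuousOn_iff]
    have h1 : ContinuousOn (fun v : V => (D.Φh p).symm ((0 : F), v))
        {v | ((0 : F), v) ∈ (D.Φh p).target} :=
      (D.Φh p).continuousOn_symm.comp
        (continuous_const.prodMk continuous_id).continuousOn (fun v hv => hv)
    exact h1.congr (fun v hv => D.ι_par p hv)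

theorem chart_apply (p x : D.M) : D.chart p x = D.ψ (D.ι p) (D.ι x) := rfl

theorem chart_symm_apply (p : D.M) (v : V) : (D.chart p).symm v = D.par p v := rfl

theorem mem_chart_source (p : D.M) : p ∈ (D.chart p).source := D.mem_Φh_source p

noncomputable instance : ChartedSpace V D.M where
  atlas := range D.chart
  chartAt := D.chart
  mem_chart_source := D.mem_chart_source
  chart_mem_atlas p := ⟨p, rfl⟩

theorem chartAt_eq (p : D.M) : chartAt V p = D.chart p := rfl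

theorem extChartAt_coe (p : D.M) :
    ⇑(extChartAt 𝓘(ℝ, V) p) = fun x => D.ψ (D.ι p) (D.ι x) := by
  ext x
  simp [D.chartAt_eq, D.chart_apply]

theorem extChartAt_symm_coe (p : D.M) :
    ⇑(extChartAt 𝓘(ℝ, V) p).symm = D.par p := by
  ext x
  simp [D.chartAt_eq, D.chart_symm_apply]

theorem isOpen_target (p : D.M) : IsOpen {v : V | ((0 : F), v) ∈ (D.Φh p).target} :=
  (D.chart p).open_target

theorem self_mem_target (x : D.M) : ((0 : F), D.ψ (D.ι x) (D.ι x)) ∈ (D.Φh x).target :=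
  (D.chart x).map_source (D.mem_chart_source x)

theorem par_self (x : D.M) : D.par x (D.ψ (D.ι x) (D.ι x)) = x :=
  (D.chart x).left_inv (D.mem_chart_source x)

/-- The local parametrisations, as maps to the ambient space, are smooth. -/
theorem contDiffAt_ι_par (p : D.M) {v : V} (hv : ((0 : F), v) ∈ (D.Φh p).target) :
    ContDiffAt ℝ ∞ (fun w => D.ι (D.par p w)) v := by
  have h1 : ContDiffAt ℝ ∞ (fun w : V => (D.Φh p).symm ((0 : F), w)) v :=
    (D.contDiffAt_Φh_symm p hv).comp v (contDiffAt_const.prodMk contDiffAt_id)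
  refine h1.congr_of_eventuallyEq ?_
  filter_upwards [(D.isOpen_target p).mem_nhds hv] with w hw using D.ι_par p hw

theorem contDiffOn_ι_par (p : D.M) :
    ContDiffOn ℝ ∞ (fun w => D.ι (D.par p w)) {v | ((0 : F), v) ∈ (D.Φh p).target} :=
  fun _ hv => (D.contDiffAt_ι_par p hv).contDiffWithinAt

theorem contDiffAt_trans (p q : D.M) {v : V} (hv : ((0 : F), v) ∈ (D.Φh p).target)
    (hq : D.ι (D.par p v) ∈ D.U (D.ι q)) :
    ContDiffAt ℝ ∞ (fun w => D.ψ (D.ι q) (D.ι (D.par p w))) v :=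
  ContDiffAt.comp (g := D.ψ (D.ι q)) v (D.sm _ (D.G_ι q) _ hq) (D.contDiffAt_ι_par p hv)

instance isManifold : IsManifold 𝓘(ℝ, V) ∞ D.M := by
  apply isManifold_of_contDiffOn
  rintro e e' ⟨p, rfl⟩ ⟨q, rfl⟩ v hv
  exact (D.contDiffAt_trans p q hv.1.1 (D.Φh_source_subset q hv.1.2).1).contDiffWithinAt

/-! ### Smooth maps to and from the level set -/

theorem contMDiff_ι : ContMDiff 𝓘(ℝ, V) 𝓘(ℝ, E) ∞ D.ι := by
  intro p
  rw [contMDiffAt_iff]
  refine ⟨D.continuous_ι.continuousAt, ?_⟩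
  have h1 := D.contDiffAt_ι_par p (D.self_mem_target p)
  rw [D.extChartAt_symm_coe, D.extChartAt_coe]
  exact h1.contDiffWithinAt

section Maps

variable {E' H' N : Type} [NormedAddCommGroup E'] [NormedSpace ℝ E'] [TopologicalSpace H']
  {I' : ModelWithCorners ℝ E' H'} [TopologicalSpace N] [ChartedSpace H' N]

theorem contMDiffAt_of {f : N → D.M} {x : N}
    (h : ContMDiffAt I' 𝓘(ℝ, E) ∞ (fun y => D.ι (f y)) x) : ContMDiffAt I' 𝓘(ℝ, V) ∞ f x := by
  rw [_root_.contMDiffAt_iff] at h ⊢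
  obtain ⟨h1, h2⟩ := h
  refine ⟨D.isEmbedding_ι.continuousAt_iff.2 h1, ?_⟩
  rw [D.extChartAt_coe]
  have h3 : ContDiffAt ℝ ∞ (D.ψ (D.ι (f x))) (D.ι (f x)) := D.sm _ (D.G_ι _) _ (D.mem _ (D.G_ι _))
  refine ContDiffAt.comp_contDiffWithinAt (g := D.ψ (D.ι (f x))) _ ?_ h2
  simpa using h3

theorem mdifferentiableAt_ι (p : D.M) : MDifferentiableAt 𝓘(ℝ, V) 𝓘(ℝ, E) D.ι p :=
  (D.contMDiff_ι p).mdifferentiableAt (by simp)

theorem mdifferentiableAt_of {f : N → D.M} {x : N}
    (h : MDifferentiableAt I' 𝓘(ℝ, E) (fun y => D.ι (f y)) x) :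
    MDifferentiableAt I' 𝓘(ℝ, V) f x := by
  rw [_root_.mdifferentiableAt_iff] at h ⊢
  obtain ⟨h1, h2⟩ := h
  refine ⟨D.isEmbedding_ι.continuousAt_iff.2 h1, ?_⟩
  have h3 : DifferentiableAt ℝ (D.ψ (D.ι (f x))) (D.ι (f x)) :=
    (D.sm _ (D.G_ι _) _ (D.mem _ (D.G_ι _))).differentiableAt (by simp)
  have h4 := DifferentiableAt.comp_differentiableWithinAt (g := D.ψ (D.ι (f x))) _
    (by simpa [writtenInExtChartAt, chartAt_self_eq] using h3) h2
  unfold writtenInExtChartAt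
  rw [D.extChartAt_coe]
  exact h4

end Maps

/-! ### The derivative of the inclusion -/

/-- The derivative of the inclusion: it embeds the tangent space at `x` in the ambient space. -/
noncomputable def dι (x : D.M) : V →L[ℝ] E := mfderiv 𝓘(ℝ, V) 𝓘(ℝ, E) D.ι x

theorem dι_eq (x : D.M) :
    D.dι x = fderiv ℝ (fun w => D.ι (D.par x w)) (D.ψ (D.ι x) (D.ι x)) := by
  rw [dι, (D.mdifferentiableAt_ι x).mfderiv]
  simp only [writtenInExtChartAt, D.extChartAt_coe, D.extChartAt_symm_coe]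
  rw [ModelWithCorners.range_eq_univ, fderivWithin_univ]
  rfl

theorem ψ_fderiv_par (p : D.M) {y : V} (hy : ((0 : F), y) ∈ (D.Φh p).target) (v : V) :
    fderiv ℝ (D.ψ (D.ι p)) (D.ι (D.par p y)) (fderiv ℝ (fun w => D.ι (D.par p w)) y v) = v := by
  have h0 := ((D.sm _ (D.G_ι p) _ (D.ι_par_mem p hy).1).differentiableAt (by simp)).hasFDerivAt
  have h1 := HasFDerivAt.comp (f := fun w => D.ι (D.par p w)) y h0
    ((D.contDiffAt_ι_par p hy).differentiableAt (by simp)).hasFDerivAt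
  have h2 : (D.ψ (D.ι p) ∘ fun w => D.ι (D.par p w)) =ᶠ[𝓝 y] id := by
    filter_upwards [(D.isOpen_target p).mem_nhds hy] with w hw
    exact (D.chart p).right_inv hw
  have h3 := (hasFDerivAt_id (𝕜 := ℝ) y).congr_of_eventuallyEq h2
  exact congrArg (fun A : V →L[ℝ] V => A v) (h1.unique h3)

theorem G_fderiv_par (p : D.M) {y : V} (hy : ((0 : F), y) ∈ (D.Φh p).target) (v : V) :
    fderiv ℝ D.G (D.ι (D.par p y)) (fderiv ℝ (fun w => D.ι (D.par p w)) y v) = 0 := by
  have hG : HasFDerivAt D.G (fderiv ℝ D.G (D.ι (D.par p y))) (D.ι (D.par p y)) :=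
    (D.smooth.differentiable (by simp) _).hasFDerivAt
  have h1 := HasFDerivAt.comp (f := fun w => D.ι (D.par p w)) _ hG
    ((D.contDiffAt_ι_par p hy).differentiableAt (by simp)).hasFDerivAt
  have h2 : (D.G ∘ fun w => D.ι (D.par p w)) = fun _ => 0 := by
    ext w
    exact D.G_ι _
  rw [h2] at h1
  exact congrArg (fun A : V →L[ℝ] F => A v) (h1.unique (hasFDerivAt_const (0 : F) _))

/-- On the domain of a chart, tangent vectors are determined by their coordinates. -/
theorem eq_of_fderiv_ψ (p : D.M) {y : E} (hy : y ∈ D.Ω p) {a b : E}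
    (h1 : fderiv ℝ D.G y a = 0) (h2 : fderiv ℝ D.G y b = 0)
    (h3 : fderiv ℝ (D.ψ (D.ι p)) y a = fderiv ℝ (D.ψ (D.ι p)) y b) : a = b := by
  obtain ⟨hU, e, he⟩ := hy
  apply e.injective
  change (e : E →L[ℝ] F × V) a = (e : E →L[ℝ] F × V) b
  rw [he, D.fderiv_Φ p hU, D.fderiv_Φ p hU, h1, h2, h3]

theorem ψ_dι (x : D.M) (v : V) : fderiv ℝ (D.ψ (D.ι x)) (D.ι x) (D.dι x v) = v := by
  have h := D.ψ_fderiv_par x (D.self_mem_target x) v
  rwa [D.par_self, ← D.dι_eq] at h

theorem dι_injective (x : D.M) : Function.Injective (D.dι x) := by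
  intro v w h
  rw [← D.ψ_dι x v, ← D.ψ_dι x w, h]

theorem fderiv_G_dι (x : D.M) (v : V) : fderiv ℝ D.G (D.ι x) (D.dι x v) = 0 := by
  have h := D.G_fderiv_par x (D.self_mem_target x) v
  rwa [D.par_self, ← D.dι_eq] at h

theorem exists_dι_eq (x : D.M) {w : E} (hw : fderiv ℝ D.G (D.ι x) w = 0) :
    ∃ v, D.dι x v = w :=
  ⟨_, D.eq_of_fderiv_ψ x (D.Φh_source_subset x (D.mem_Φh_source x)) (D.fderiv_G_dι x _) hw
    (D.ψ_dι x _)⟩

section Maps

variable {E' H' N : Type} [NormedAddCommGroup E'] [NormedSpace ℝ E'] [TopologicalSpace H']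
  {I' : ModelWithCorners ℝ E' H'} [TopologicalSpace N] [ChartedSpace H' N]

/-- Chain rule for maps to the level set. -/
theorem dι_mfderiv {f : N → D.M} {x : N} (hf : MDifferentiableAt I' 𝓘(ℝ, V) f x) (v : E') :
    D.dι (f x) (mfderiv I' 𝓘(ℝ, V) f x v) = mfderiv I' 𝓘(ℝ, E) (fun y => D.ι (f y)) x v := by
  have h := mfderiv_comp x (D.mdifferentiableAt_ι (f x)) hf
  have h2 := congrArg (fun A : TangentSpace I' x →L[ℝ] TangentSpace 𝓘(ℝ, E) (D.ι (f x)) => A v) h
  exact h2.symm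

theorem mfderiv_comp_ι {W : Type} [NormedAddCommGroup W] [NormedSpace ℝ W] {h : E → W}
    {x : D.M} (hh : DifferentiableAt ℝ h (D.ι x)) (v : V) :
    mfderiv 𝓘(ℝ, V) 𝓘(ℝ, W) (fun y => h (D.ι y)) x v = fderiv ℝ h (D.ι x) (D.dι x v) := by
  have h1 := mfderiv_comp x hh.mdifferentiableAt (D.mdifferentiableAt_ι x)
  have h2 := congrArg (fun A : TangentSpace 𝓘(ℝ, V) x →L[ℝ] TangentSpace 𝓘(ℝ, W) (h (D.ι x)) =>
    A v) h1
  rw [mfderiv_eq_fderiv] at h2
  exact h2

/-- Chain rule for a map `g` of the level set which is the restriction of an ambient map `Φ`. -/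
theorem dι_mfderiv_of_restrict {g : D.M → D.M} {Φ : E → E} {x : D.M}
    (hΦ : DifferentiableAt ℝ Φ (D.ι x)) (hg : ∀ y, D.ι (g y) = Φ (D.ι y)) (v : V) :
    D.dι (g x) (mfderiv 𝓘(ℝ, V) 𝓘(ℝ, V) g x v) = fderiv ℝ Φ (D.ι x) (D.dι x v) := by
  have h0 : (fun y => D.ι (g y)) = fun y => Φ (D.ι y) := funext hg
  have hgd : MDifferentiableAt 𝓘(ℝ, V) 𝓘(ℝ, V) g x := by
    apply D.mdifferentiableAt_of
    rw [h0]
    exact hΦ.mdifferentiableAt.comp x (D.mdifferentiableAt_ι x)
  have h1 := congrArg (fun f : D.M → E =>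
    (mfderiv 𝓘(ℝ, V) 𝓘(ℝ, E) f x : V →L[ℝ] E) v) h0
  exact (D.dι_mfderiv hgd v).trans (h1.trans (D.mfderiv_comp_ι hΦ v))

theorem dι_mfderiv_par (p : D.M) {y : V} (hy : ((0 : F), y) ∈ (D.Φh p).target) (v : V) :
    D.dι (D.par p y) (mfderiv 𝓘(ℝ, V) 𝓘(ℝ, V) (D.par p) y v) =
      fderiv ℝ (fun w => D.ι (D.par p w)) y v := by
  have h := D.dι_mfderiv (D.mdifferentiableAt_of
    ((D.contDiffAt_ι_par p hy).differentiableAt (by simp)).mdifferentiableAt) v
  rw [mfderiv_eq_fderiv] at h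
  exact h

end Maps

end CL

end Vale.Agent.N265X
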