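import Vale.Agent.N265X.Defs
import Vale.Agent.N265X.Level
import Vale.Agent.P265.H363.Amb

/-!
# Forms, Hamiltonian flows and fixed points on level sets, from ambient data
-/

open Set Manifold Module
open scoped ContDiff Topology

set_option linter.unusedSectionVars false
set_option maxSynthPendingDepth 3

noncomputable section

namespace Vale.Agent.N265X

open Vale.Agent.P265.H363

/-- The alternating part of a bilinear form. -/
def alt (E : Type) [NormedAddCommGroup E] [NormedSpace ℝ E] :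
    (E →L[ℝ] E →L[ℝ] ℝ) →L[ℝ] (E [⋀^Fin 2]→L[ℝ] ℝ) :=
  (1 / 2 : ℝ) • (ContinuousAlternatingMap.alternatizeUncurryFinCLM (n := 1) ℝ E ℝ).comp
    (ContinuousLinearMap.compL ℝ E (E →L[ℝ] ℝ) (E [⋀^Fin 1]→L[ℝ] ℝ)
      (ContinuousAlternatingMap.ofSubsingletonLIE (𝕜 := ℝ) (E := E) (F := ℝ)
        (0 : Fin 1)).toContinuousLinearEquiv.toContinuousLinearMap)

theorem alt_apply {E : Type} [NormedAddCommGroup E] [NormedSpace ℝ E] (B : E →L[ℝ] E →L[ℝ] ℝ)
    (v : Fin 2 → E) : alt E B v = (1 / 2) * (B (v 0) (v 1) - B (v 1) (v 0)) := by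
  have h : alt E B v = (1 / 2 : ℝ) * ∑ i : Fin 2, (-1) ^ (i : ℕ) • B (v i) (Fin.removeNth i v 0) := by
    simp only [alt, smul_apply, ContinuousLinearMap.comp_apply,
      ContinuousAlternatingMap.smul_apply,
      ContinuousAlternatingMap.alternatizeUncurryFinCLM_apply,
      ContinuousAlternatingMap.alternatizeUncurryFin_apply, smul_eq_mul]
    rfl
  rw [h, Fin.sum_univ_two]
  simp [Fin.removeNth, sub_eq_add_neg]

theorem anti_of_alt {E : Type} [NormedAddCommGroup E] [NormedSpace ℝ E] {B : E →L[ℝ] E →L[ℝ] ℝ}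
    (h : ∀ v, B v v = 0) (a b : E) : B a b = -B b a := by
  have h1 := h (a + b)
  simp only [map_add, add_apply, h a, h b] at h1
  linarith

namespace CL

variable {E F V : Type} [NormedAddCommGroup E] [NormedSpace ℝ E]
    [NormedAddCommGroup F] [NormedSpace ℝ F] [NormedAddCommGroup V] [NormedSpace ℝ V]
    [FiniteDimensional ℝ E] [FiniteDimensional ℝ F] [FiniteDimensional ℝ V]
    (D : CL E F V) {c : ℕ∞} (A : Amb D.G c)

/-- The restriction to the level set of the ambient form. -/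
def form : TwoForm V D.M :=
  fun x => (alt E (A.Ω (D.ι x))).compContinuousLinearMap (D.dι x)

theorem form_apply (x : D.M) (v w : V) :
    D.form A x ![v, w] = A.Ω (D.ι x) (D.dι x v) (D.dι x w) := by
  have h : D.form A x ![v, w] = (1 / 2) * (A.Ω (D.ι x) (D.dι x v) (D.dι x w) -
      A.Ω (D.ι x) (D.dι x w) (D.dι x v)) := alt_apply _ _
  rw [h, anti_of_alt (A.halt _ (D.G_ι x)) (D.dι x w)]
  ring

theorem inChart_form (p : D.M) {y : V} (hy : ((0 : F), y) ∈ (D.Φh p).target) :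
    inChart (D.form A) p y = (alt E (A.Ω (D.ι (D.par p y)))).compContinuousLinearMap
      (fderiv ℝ (fun w => D.ι (D.par p w)) y) := by
  ext v
  change alt E (A.Ω (D.ι (D.par p y))) (fun i => D.dι (D.par p y)
    (mfderiv 𝓘(ℝ, V) 𝓘(ℝ, V) (D.par p) y (v i))) = alt E (A.Ω (D.ι (D.par p y)))
      (fun i => fderiv ℝ (fun w => D.ι (D.par p w)) y (v i))
  congr 1
  funext i
  exact D.dι_mfderiv_par p hy (v i)

theorem form_nondeg (x : D.M) (v : V) (h : ∀ w : V, D.form A x ![v, w] = 0) : v = 0 := by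
  have h1 : D.dι x v = 0 := by
    refine A.hnd _ (D.G_ι x) _ (D.fderiv_G_dι x v) ?_
    intro w hw
    obtain ⟨w', rfl⟩ := D.exists_dι_eq x hw
    rw [← D.form_apply]
    exact h w'
  exact D.dι_injective x (h1.trans (map_zero _).symm)

theorem isSymplectic_form : IsSymplectic (D.form A) where
  nondeg := D.form_nondeg A
  smooth p := by
    intro y hy
    have h1 := D.contDiffAt_ι_par p hy
    have h2 := h1.fderiv_right (m := ∞) (by simp)
    have h3 : ContDiffAt ℝ ∞ (fun y => A.Ω (D.ι (D.par p y))) y :=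
      ContDiffAt.comp (g := A.Ω) y (A.hs _ (D.G_ι _)) h1
    have h4 := h3.clm_comp h2
    have h5 := ((ContinuousLinearMap.flipₗᵢ ℝ V E ℝ).toContinuousLinearEquiv.contDiff.contDiffAt.comp
      y h4).clm_comp h2
    have h6 := (ContinuousLinearMap.flipₗᵢ ℝ V V ℝ).toContinuousLinearEquiv.contDiff.contDiffAt.comp
      y h5
    have h7 := (alt V).contDiff.contDiffAt.comp y h6
    refine (h7.congr_of_eventuallyEq ?_).contDiffWithinAt
    filter_upwards [(D.isOpen_target p).mem_nhds hy] with z hz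
    rw [D.inChart_form A p hz]
    ext v
    simp only [Function.comp_apply, ContinuousAlternatingMap.compContinuousLinearMap_apply,
      alt_apply]
    rfl
  closed p y hy := by
    have h1 := D.contDiffAt_ι_par p hy
    have e1 : inChart (D.form A) p =ᶠ[𝓝 y] fun z => ((fun x => alt E (A.Ω x))
        (D.ι (D.par p z))).compContinuousLinearMap (fderiv ℝ (fun w => D.ι (D.par p w)) z) := by
      filter_upwards [(D.isOpen_target p).mem_nhds hy] with z hz
      exact D.inChart_form A p hz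
    have hΩ : DifferentiableAt ℝ A.Ω (D.ι (D.par p y)) :=
      (A.hs _ (D.G_ι _)).differentiableAt (by simp)
    have h2 : HasFDerivAt (fun x => alt E (A.Ω x))
        ((alt E).comp (fderiv ℝ A.Ω (D.ι (D.par p y)))) (D.ι (D.par p y)) :=
      (alt E).hasFDerivAt.comp _ hΩ.hasFDerivAt
    rw [e1.extDeriv_eq, extDeriv_pullback (f := fun w => D.ι (D.par p w)) h2.differentiableAt h1
      (by rw [minSmoothness_of_isRCLikeNormedField]; norm_cast)]
    ext v
    rw [ContinuousAlternatingMap.compContinuousLinearMap_apply, extDeriv, h2.fderiv,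
      ContinuousAlternatingMap.alternatizeUncurryFin_apply, Fin.sum_univ_three]
    simp only [ContinuousLinearMap.comp_apply, alt_apply]
    have h3 := fun i => D.G_fderiv_par p hy (v i)
    have h4 := A.hcl _ (D.G_ι (D.par p y)) _ _ _ (h3 0) (h3 1) (h3 2)
    have h5 := A.hcl _ (D.G_ι (D.par p y)) _ _ _ (h3 0) (h3 2) (h3 1)
    simp [Fin.removeNth, Fin.succAbove]
    linarith

/-- Every covector is dual to a tangent vector. -/
theorem exists_dual (x : D.M) (l : V →L[ℝ] ℝ) : ∃ v : V, ∀ w : V, D.form A x ![v, w] = l w := by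
  let B : V →L[ℝ] V →L[ℝ] ℝ := pbB (D.dι x) (A.Ω (D.ι x))
  have h1 : Function.Injective (B : V →ₗ[ℝ] V →L[ℝ] ℝ) := by
    rw [← LinearMap.ker_eq_bot, LinearMap.ker_eq_bot']
    intro v hv
    refine D.form_nondeg A x v fun w => ?_
    rw [D.form_apply]
    exact congrArg (fun f : V →L[ℝ] ℝ => f w) hv
  have h2 : finrank ℝ V = finrank ℝ (V →L[ℝ] ℝ) := by
    rw [← (LinearMap.toContinuousLinearMap (𝕜 := ℝ) (E := V) (F' := ℝ)).finrank_eq]
    exact Subspace.dual_finrank_eq.symm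
  obtain ⟨v, hv⟩ := (LinearMap.linearEquivOfInjective _ h1 h2).surjective l
  refine ⟨v, fun w => ?_⟩
  rw [D.form_apply]
  exact congrArg (fun f : V →L[ℝ] ℝ => f w) hv

/-- Functions of time and of the ambient point restrict to smooth functions on `ℝ × M`. -/
theorem contMDiff_time {W : Type} [NormedAddCommGroup W] [NormedSpace ℝ W] (H : ℝ → E → W)
    (hH : ∀ t x, D.G x = 0 → ContDiffAt ℝ ∞ (fun q : ℝ × E => H q.1 q.2) (t, x)) :
    ContMDiff (𝓘(ℝ, ℝ).prod 𝓘(ℝ, V)) 𝓘(ℝ, W) ∞ (fun z : ℝ × D.M => H z.1 (D.ι z.2)) := by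
  rintro ⟨t, x⟩
  have h1 : ContMDiffAt (𝓘(ℝ, ℝ).prod 𝓘(ℝ, V)) 𝓘(ℝ, ℝ × E) ∞
      (fun z : ℝ × D.M => (z.1, D.ι z.2)) (t, x) := by
    refine ContMDiffAt.prodMk_space contMDiffAt_fst ?_
    exact (D.contMDiff_ι x).comp (t, x) contMDiffAt_snd
  exact ContMDiffAt.comp (t, x) (hH t (D.ι x) (D.G_ι x)).contMDiffAt h1

/-- The Hamiltonian on the level set. -/
def ham (τ : UnitAddCircle) (x : D.M) : ℝ :=
  Function.Periodic.lift (f := fun t => A.H t (D.ι x)) (c := 1) (fun t => A.hper t _ (D.G_ι x)) τ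

/-- The flow on the level set. -/
def flow (t : ℝ) (x : D.M) : D.M := D.pt (A.Φ t (D.ι x)) (A.hG t _ (D.G_ι x))

theorem isHamFlow : IsHamFlow (D.form A) (D.ham A) (D.flow A) where
  smoothH := D.contMDiff_time A.H A.hH
  smooth z := D.contMDiffAt_of (D.contMDiff_time A.Φ A.hΦ z)
  zero x := D.ext (A.h0 _ (D.G_ι x))
  ode := by
    choose X hX using fun (t : ℝ) (x : D.M) =>
      D.exists_dual A x (mfderiv 𝓘(ℝ, V) 𝓘(ℝ, ℝ) (D.ham A t) x)
    refine ⟨X, hX, fun t x => ?_⟩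
    have hd : HasDerivAt (fun s => D.ι (D.flow A s x)) (deriv (fun s => A.Φ s (D.ι x)) t) t :=
      (diff_curve (A.hΦ t _ (D.G_ι x))).hasDerivAt
    have hm : MDifferentiableAt 𝓘(ℝ, ℝ) 𝓘(ℝ, V) (D.flow A · x) t :=
      D.mdifferentiableAt_of hd.differentiableAt.mdifferentiableAt
    obtain ⟨u, hu⟩ : ∃ u : V, u = mfderiv 𝓘(ℝ, ℝ) 𝓘(ℝ, V) (D.flow A · x) t (1 : ℝ) := ⟨_, rfl⟩
    have e1 : D.dι (D.flow A t x) u = deriv (fun s => A.Φ s (D.ι x)) t := by
      rw [hu, D.dι_mfderiv hm, mfderiv_eq_fderiv]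
      exact hd.deriv
    have e2 : u = X t (D.flow A t x) := by
      rw [← sub_eq_zero]
      refine D.form_nondeg A (D.flow A t x) _ fun w => ?_
      have e3 := A.ham t (D.ι x) (D.G_ι x) (D.dι (D.flow A t x) w)
        (D.fderiv_G_dι (D.flow A t x) w)
      have e4 := D.mfderiv_comp_ι (diff_time (A.hH t _ (D.G_ι (D.flow A t x)))) w
      have e5 := hX t (D.flow A t x) w
      rw [D.form_apply] at e5 ⊢
      rw [map_sub, map_sub, sub_apply, e1, e5, sub_eq_zero]
      exact e3.trans e4.symm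
    refine hm.hasMFDerivAt.congr_mfderiv ?_
    rw [← e2]
    apply ContinuousLinearMap.ext_ring
    exact hu.symm.trans (one_smul ℝ u).symm

theorem nondeg_flow : Nondeg V (D.flow A 1) := by
  intro x hx h
  obtain ⟨v, hv⟩ := h.exists_hasEigenvector
  have h0 : mfderiv 𝓘(ℝ, V) 𝓘(ℝ, V) (D.flow A 1) x v = v :=
    hv.apply_eq_smul.trans (one_smul ℝ v)
  have h1 : A.Φ 1 (D.ι x) = D.ι x := congrArg D.ι hx
  have h2 := D.dι_mfderiv_of_restrict (g := D.flow A 1) (diff_time (A.hΦ 1 _ (D.G_ι x)))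
    (fun _ => rfl) v
  have h3 : D.dι (D.flow A 1 x) (mfderiv 𝓘(ℝ, V) 𝓘(ℝ, V) (D.flow A 1) x v) = D.dι x v := by
    have h4 : D.dι (D.flow A 1 x) = D.dι x := by rw [hx]
    rw [h4]
    exact congrArg (D.dι x) h0
  have h5 := A.hfix _ (D.G_ι x) h1 (D.dι x v) (D.fderiv_G_dι x v) (h2.symm.trans h3)
  exact hv.2 (D.dι_injective x (h5.trans (map_zero _).symm))

theorem encard_fix : {x | D.flow A 1 x = x}.encard ≤ c := by
  have h1 : D.ι '' {x | D.flow A 1 x = x} ⊆ {x | D.G x = 0 ∧ A.Φ 1 x = x} := by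
    rintro _ ⟨x, hx, rfl⟩
    exact ⟨D.G_ι x, congrArg D.ι hx⟩
  calc {x | D.flow A 1 x = x}.encard
      = (D.ι '' {x | D.flow A 1 x = x}).encard := (D.ι_injective.encard_image _).symm
    _ ≤ _ := encard_le_encard h1
    _ ≤ c := A.card

end CL

end Vale.Agent.N265X
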