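import Vale.Agent.N265X.LevelForm
import Vale.Agent.N265X.Kah
import Vale.Agent.P268.Hol

/-!
# Level sets with holomorphic coordinates are Kähler manifolds
-/

open Set Manifold Module
open scoped ContDiff Topology

set_option linter.unusedSectionVars false

noncomputable section

namespace Vale.Agent.N265X

open Vale.Agent.P265.H363

/-- A real-linear map which commutes with `i` is complex-linear. -/
theorem exists_complexLinear {V : Type} [NormedAddCommGroup V] [NormedSpace ℝ V] [NormedSpace ℂ V]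
    [IsScalarTower ℝ ℂ V] (L : V →L[ℝ] V) (h : ∀ v, L (Complex.I • v) = Complex.I • L v) :
    ∃ g : V →L[ℂ] V, g.restrictScalars ℝ = L := by
  have key : ∀ (c : ℂ) (v : V), c • v = c.re • v + c.im • (Complex.I • v) := by
    intro c v
    conv_lhs => rw [← Complex.re_add_im c]
    rw [add_smul, mul_smul, ← algebraMap_smul ℂ c.re v, ← algebraMap_smul ℂ c.im (Complex.I • v)]
    rfl
  refine ⟨⟨⟨⟨L, L.map_add⟩, fun c v => ?_⟩, L.continuous⟩, rfl⟩
  change L (c • v) = c • L v
  rw [key c v, key c (L v), map_add, map_smul, map_smul, h]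

namespace CL

variable {E F V : Type} [NormedAddCommGroup E] [NormedSpace ℝ E]
    [NormedAddCommGroup F] [NormedSpace ℝ F] [NormedAddCommGroup V] [NormedSpace ℝ V]
    [FiniteDimensional ℝ E] [FiniteDimensional ℝ F] [FiniteDimensional ℝ V]
    [NormedSpace ℂ V] [IsScalarTower ℝ ℂ V] (D : CL E F V)

/-- The coordinates are holomorphic for `J`. -/
structure IsHol (J : E → E → E) : Prop where
  tan : ∀ y, D.G y = 0 → ∀ v, fderiv ℝ D.G y v = 0 → fderiv ℝ D.G y (J y v) = 0
  hol : ∀ p, D.G p = 0 → ∀ y ∈ D.U p, D.G y = 0 → ∀ v, fderiv ℝ D.G y v = 0 →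
    fderiv ℝ (D.ψ p) y (J y v) = Complex.I • fderiv ℝ (D.ψ p) y v

variable {D} {J : E → E → E}

theorem IsHol.par (h : D.IsHol J) (p : D.M) {y : V} (hy : ((0 : F), y) ∈ (D.Φh p).target) (v : V) :
    fderiv ℝ (fun w => D.ι (D.par p w)) y (Complex.I • v) =
      J (D.ι (D.par p y)) (fderiv ℝ (fun w => D.ι (D.par p w)) y v) := by
  refine D.eq_of_fderiv_ψ p (D.ι_par_mem p hy) (D.G_fderiv_par p hy _)
    (h.tan _ (D.G_ι _) _ (D.G_fderiv_par p hy _)) ?_
  rw [h.hol _ (D.G_ι p) _ (D.ι_par_mem p hy).1 (D.G_ι _) _ (D.G_fderiv_par p hy _),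
    D.ψ_fderiv_par p hy, D.ψ_fderiv_par p hy]

theorem IsHol.dι (h : D.IsHol J) (x : D.M) (v : V) :
    D.dι x (Complex.I • v) = J (D.ι x) (D.dι x v) := by
  have h1 := h.par x (D.self_mem_target x) v
  rwa [D.par_self, ← D.dι_eq] at h1

theorem IsHol.differentiableAt (h : D.IsHol J) (p q : D.M) {y : V}
    (hy : ((0 : F), y) ∈ (D.Φh p).target) (hq : D.ι (D.par p y) ∈ D.U (D.ι q)) :
    DifferentiableAt ℂ (fun w => D.ψ (D.ι q) (D.ι (D.par p w))) y := by
  rw [differentiableAt_iff_restrictScalars ℝ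
    ((D.contDiffAt_trans p q hy hq).differentiableAt (by simp))]
  have h1 : HasFDerivAt (fun w => D.ψ (D.ι q) (D.ι (D.par p w))) _ y :=
    HasFDerivAt.comp (f := fun w => D.ι (D.par p w)) y
      ((D.sm _ (D.G_ι q) _ hq).differentiableAt (by simp)).hasFDerivAt
      ((D.contDiffAt_ι_par p hy).differentiableAt (by simp)).hasFDerivAt
  rw [h1.fderiv]
  refine exists_complexLinear _ fun v => ?_
  rw [ContinuousLinearMap.comp_apply, ContinuousLinearMap.comp_apply, h.par p hy,
    h.hol _ (D.G_ι q) _ hq (D.G_ι _) _ (D.G_fderiv_par p hy _)]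

theorem IsHol.isManifold (h : D.IsHol J) : IsManifold 𝓘(ℂ, V) ω D.M := by
  have : FiniteDimensional ℂ V := Module.Finite.of_restrictScalars_finite ℝ ℂ V
  have : CompleteSpace V := FiniteDimensional.complete ℝ V
  apply isManifold_of_contDiffOn
  rintro e e' ⟨p, rfl⟩ ⟨q, rfl⟩ v hv
  have h1 : DifferentiableOn ℂ (fun w => D.ψ (D.ι q) (D.ι (D.par p w)))
      ((D.chart p).symm ≫ₕ D.chart q).source := fun w hw =>
    (h.differentiableAt p q hw.1 (D.Φh_source_subset q hw.2).1).differentiableWithinAt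
  exact (Vale.Agent.P268.analyticOnNhd_of_differentiableOn
    ((D.chart p).symm ≫ₕ D.chart q).open_source h1 v hv.1).contDiffAt.contDiffWithinAt

theorem IsHol.isKaehler (h : D.IsHol J) {c : ℕ∞} (A : Amb D.G c)
    (hinv : ∀ y, D.G y = 0 → ∀ v w, fderiv ℝ D.G y v = 0 → fderiv ℝ D.G y w = 0 →
      A.Ω y (J y v) (J y w) = A.Ω y v w)
    (hpos : ∀ y, D.G y = 0 → ∀ v, fderiv ℝ D.G y v = 0 → v ≠ 0 → 0 < A.Ω y v (J y v)) :
    IsKaehler (D.form A) where
  toIsSymplectic := D.isSymplectic_form A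
  inv x v w := by
    rw [D.form_apply, D.form_apply, h.dι, h.dι]
    exact hinv _ (D.G_ι x) _ _ (D.fderiv_G_dι x v) (D.fderiv_G_dι x w)
  pos x v hv := by
    rw [D.form_apply, h.dι]
    refine hpos _ (D.G_ι x) _ (D.fderiv_G_dι x v) fun h0 => hv ?_
    exact D.dι_injective x (h0.trans (map_zero _).symm)

end CL

end Vale.Agent.N265X
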