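import Vale.Agent.N265X.Kah
import Mathlib.Analysis.Quaternion
import Mathlib.Analysis.Calculus.Deriv.Inv
import Mathlib.Analysis.Calculus.Deriv.Comp
import Mathlib.Topology.Algebra.Module.FiniteDimension

open scoped ContDiff Quaternion

namespace Vale.Agent.N265X

namespace Quat

theorem inner_eq (a b : ℍ[ℝ]) :
    inner ℝ a b = a.re * b.re + a.imI * b.imI + a.imJ * b.imJ + a.imK * b.imK := by
  rw [Quaternion.inner_def]
  simp

theorem unit {v : ℍ[ℝ]} (h : ‖v‖ = 1) (h0 : v.re = 0) :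
    v.imI * v.imI + v.imJ * v.imJ + v.imK * v.imK = 1 := by
  have := inner_eq v v
  rw [real_inner_self_eq_norm_sq, h, h0] at this
  linarith

/-- the first imaginary coordinate, with a sign -/
noncomputable def cA (s : ℝ) : ℍ[ℝ] →L[ℝ] ℝ :=
  LinearMap.toContinuousLinearMap
    { toFun := fun q => s * q.imI
      map_add' := fun _ _ => by simp [mul_add]
      map_smul' := fun _ _ => by simp [mul_left_comm] }

/-- the other two imaginary coordinates -/
noncomputable def cB (s : ℝ) : ℍ[ℝ] →L[ℝ] ℂ :=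
  LinearMap.toContinuousLinearMap
    { toFun := fun q => ⟨q.imJ, s * q.imK⟩
      map_add' := fun _ _ => Complex.ext (by simp) (by simp [mul_add])
      map_smul' := fun _ _ => Complex.ext (by simp) (by simp [mul_left_comm]) }

theorem cA_apply (s : ℝ) (q : ℍ[ℝ]) : cA s q = s * q.imI := rfl

theorem cB_re (s : ℝ) (q : ℍ[ℝ]) : (cB s q).re = q.imJ := rfl

theorem cB_im (s : ℝ) (q : ℍ[ℝ]) : (cB s q).im = s * q.imK := rfl

theorem fderiv_chart (s : ℝ) {y : ℍ[ℝ]} (h : 1 + cA s y ≠ 0) (a : ℍ[ℝ]) :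
    fderiv ℝ (fun q => (1 + cA s q)⁻¹ • cB s q) y a =
      (1 + cA s y)⁻¹ • cB s a + (-((1 + cA s y) ^ 2)⁻¹ * cA s a) • cB s y := by
  have h1 : HasFDerivAt (fun q => 1 + cA s q) (cA s) y := (cA s).hasFDerivAt.const_add 1
  have h2 : HasFDerivAt (fun q => (1 + cA s q)⁻¹) ((-((1 + cA s y) ^ 2)⁻¹) • cA s) y :=
    (hasDerivAt_inv h).comp_hasFDerivAt y h1
  rw [(h2.fun_smul (cB s).hasFDerivAt).fderiv]
  rfl

theorem chart {s : ℝ} (hs : s * s = 1) {p : ℍ[ℝ]} (h1 : ‖p‖ = 1) (h0 : p.re = 0)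
    (hp : 1 + cA s p ≠ 0) : HolChart {v : ℍ[ℝ] | ‖v‖ = 1 ∧ v.re = 0}
      (fun v a => inner ℝ v a = 0 ∧ a.re = 0) (fun v a => v * a) ℂ p := by
  refine ⟨fun q => (1 + cA s q)⁻¹ • cB s q, {q | 1 + cA s q ≠ 0},
    isOpen_ne_fun (continuous_const.add (cA s).continuous) continuous_const, hp,
    fun y hy => ((contDiffAt_const.add (cA s).contDiff.contDiffAt).inv hy).smul
      (cB s).contDiff.contDiffAt, fun a ha e => ?_, fun y hy hz a ha => ?_⟩
  · rw [fderiv_chart s hp] at e
    have u := unit h1 h0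
    have t := ha.1
    rw [inner_eq, h0] at t
    have e1 := congrArg Complex.re e
    have e2 := congrArg Complex.im e
    simp only [Complex.add_re, Complex.add_im, Complex.smul_re, Complex.smul_im, cB_re, cB_im,
      smul_eq_mul, Complex.zero_re, Complex.zero_im, cA_apply] at e1 e2 hp
    obtain ⟨r, hr⟩ : ∃ r, r = (1 + s * p.imI)⁻¹ := ⟨_, rfl⟩
    have r1 : r * (1 + s * p.imI) = 1 := hr ▸ inv_mul_cancel₀ hp
    rw [← inv_pow, ← hr] at e1 e2
    have f1 : a.imJ = r * s * a.imI * p.imJ := by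
      linear_combination (1 + s * p.imI) * e1 - (a.imJ - r * s * a.imI * p.imJ) * r1
    have f2 : s * a.imK = r * s * a.imI * (s * p.imK) := by
      linear_combination (1 + s * p.imI) * e2 - (s * a.imK - r * s * a.imI * (s * p.imK)) * r1
    have f3 : a.imK = r * s * a.imI * p.imK := by
      linear_combination s * f2 - (a.imK - r * s * a.imI * p.imK) * hs
    have f4 : a.imI = 0 := by
      rw [f1, f3] at t
      linear_combination s * t - r * s * s * a.imI * u -
        a.imI * (1 - s * p.imI) * r1 - r * a.imI * hs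
    ext
    · exact ha.2
    · exact f4
    · rw [f1, f4]; simp
    · rw [f3, f4]; simp
  · have hy' : 1 + cA s y ≠ 0 := hy
    rw [fderiv_chart s hy', fderiv_chart s hy']
    have u := unit hz.1 hz.2
    have t := ha.1
    rw [inner_eq, hz.2] at t
    rw [cA_apply] at hy'
    obtain ⟨r, hr⟩ : ∃ r, r = (1 + s * y.imI)⁻¹ := ⟨_, rfl⟩
    have r1 : r * (1 + s * y.imI) = 1 := hr ▸ inv_mul_cancel₀ hy'
    refine Complex.ext ?_ ?_ <;>
      simp only [Complex.add_re, Complex.add_im, Complex.smul_re, Complex.smul_im, cB_re, cB_im,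
        smul_eq_mul, cA_apply, Complex.mul_re, Complex.mul_im, Complex.I_re, Complex.I_im,
        Quaternion.imI_mul, Quaternion.imJ_mul, Quaternion.imK_mul, hz.2, ha.2, ← inv_pow, ← hr]
    · linear_combination r ^ 2 * s * y.imK * t - r ^ 2 * s * a.imK * u +
        r ^ 2 * (y.imI * a.imK - a.imI * y.imK) * hs -
        r * (y.imK * a.imI - y.imI * a.imK + s * a.imK) * r1
    · linear_combination r ^ 2 * s * s * a.imJ * u + r ^ 2 * a.imJ * hs -
        r ^ 2 * s * s * y.imJ * t - r * (s * (y.imI * a.imJ - y.imJ * a.imI) - a.imJ) * r1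

end Quat

open Quat in
/-- The sphere of imaginary unit quaternions with (a positive multiple of) its area form is
Kähler. -/
theorem kah_quat {κ : ℝ} (hκ : 0 < κ) : Kah {v : ℍ[ℝ] | ‖v‖ = 1 ∧ v.re = 0}
    (fun v a => inner ℝ v a = 0 ∧ a.re = 0)
    (fun v a b => κ * (1 / 2 * inner ℝ v (a * b - b * a))) ℂ := by
  refine ⟨fun v a => v * a, fun y hy a ha => ?_, fun y hy a b ha hb => ?_, fun y hy a ha h => ?_,
    fun p hp => ?_⟩
  · have t := ha.1
    rw [inner_eq, hy.2] at t
    refine ⟨?_, ?_⟩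
    · simp only [inner_eq, Quaternion.imI_mul, Quaternion.imJ_mul, Quaternion.imK_mul, hy.2, ha.2]
      ring
    · simp only [Quaternion.re_mul, hy.2]
      linarith
  · have u := unit hy.1 hy.2
    simp only [inner_eq, Quaternion.imI_mul, Quaternion.imJ_mul, Quaternion.imK_mul,
      Quaternion.imI_sub, Quaternion.imJ_sub, Quaternion.imK_sub, hy.2, ha.2, hb.2]
    linear_combination κ * (y.imI * (a.imJ * b.imK - a.imK * b.imJ) +
      y.imJ * (a.imK * b.imI - a.imI * b.imK) + y.imK * (a.imI * b.imJ - a.imJ * b.imI)) * u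
  · have u := unit hy.1 hy.2
    have t := ha.1
    rw [inner_eq, hy.2] at t
    have n : 0 < inner ℝ a a := real_inner_self_pos.2 h
    refine mul_pos hκ (n.trans_eq ?_)
    simp only [inner_eq, Quaternion.imI_mul, Quaternion.imJ_mul, Quaternion.imK_mul,
      Quaternion.imI_sub, Quaternion.imJ_sub, Quaternion.imK_sub, hy.2, ha.2]
    linear_combination (y.imI * a.imI + y.imJ * a.imJ + y.imK * a.imK) * t -
      (a.imI * a.imI + a.imJ * a.imJ + a.imK * a.imK) * u
  · by_cases h : 1 + cA 1 p = 0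
    · refine chart (s := -1) (by norm_num) hp.1 hp.2 ?_
      rw [cA_apply] at h ⊢
      intro k
      linarith
    · exact chart (one_mul 1) hp.1 hp.2 h

end Vale.Agent.N265X
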