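import Vale.Agent.N265X.Kah
import Vale.Agent.P265.H363.S2

open scoped ContDiff

namespace Vale.Agent.N265X

open Vale.Agent.P265.H363

/-- The cross product. -/
def sphJ (s a : ℝ × ℂ) : ℝ × ℂ :=
  (s.2.re * a.2.im - s.2.im * a.2.re, ⟨s.2.im * a.1 - s.1 * a.2.im, s.1 * a.2.re - s.2.re * a.1⟩)

/-- The numerator of the stereographic projection. -/
noncomputable def sphL (ε : ℝ) : ℝ × ℂ →L[ℝ] ℂ :=
  Lr.smulRight (1 : ℂ) + (ε • Li).smulRight Complex.I

theorem sphL_re (ε : ℝ) (a : ℝ × ℂ) : (sphL ε a).re = a.2.re := by simp [sphL]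

theorem sphL_im (ε : ℝ) (a : ℝ × ℂ) : (sphL ε a).im = ε * a.2.im := by simp [sphL]

theorem sph_fderiv (ε : ℝ) (s : ℝ × ℂ) (hs : 1 + ε * s.1 ≠ 0) (a : ℝ × ℂ) :
    fderiv ℝ (fun y : ℝ × ℂ => (1 + ε * y.1)⁻¹ • sphL ε y) s a =
      (1 + ε * s.1)⁻¹ • sphL ε a - (ε * a.1 / (1 + ε * s.1) ^ 2) • sphL ε s := by
  have h1 : HasFDerivAt (fun y : ℝ × ℂ => 1 + ε * y.1) (ε • Lh) s :=
    (Lh.hasFDerivAt.const_mul ε).const_add 1
  have h2 := ((hasDerivAt_inv hs).comp_hasFDerivAt s h1).smul (sphL ε).hasFDerivAt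
  have h3 : fderiv ℝ (fun y : ℝ × ℂ => (1 + ε * y.1)⁻¹ • sphL ε y) s = _ := h2.fderiv
  rw [h3, sub_eq_add_neg, ← neg_smul]
  simp only [add_apply, smul_apply,
    ContinuousLinearMap.smulRight_apply, Function.comp, Lh_apply, smul_eq_mul]
  congr 2
  ring

theorem sph_chart (ε : ℝ) (hε : ε ^ 2 = 1) (p : ℝ × ℂ) (hp : q p = 0) (h : 0 < 1 + ε * p.1) :
    HolChart {s : ℝ × ℂ | q s = 0} (fun s a => fderiv ℝ q s a = 0) sphJ ℂ p := by
  refine ⟨fun y => (1 + ε * y.1)⁻¹ • sphL ε y, {y | 0 < 1 + ε * y.1},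
    isOpen_lt continuous_const (by fun_prop), h, fun y hy => ?_, fun v hv h0 => ?_,
    fun y hy hy' v hv => ?_⟩
  · exact ((contDiffAt_const.add (contDiffAt_const.mul contDiffAt_fst)).inv (ne_of_gt hy)).smul
      (sphL ε).contDiff.contDiffAt
  · rw [sph_fderiv ε p h.ne', sub_eq_zero] at h0
    have h1 := congrArg Complex.re h0
    have h2 := congrArg Complex.im h0
    rw [Complex.smul_re, Complex.smul_re, sphL_re, sphL_re, smul_eq_mul, smul_eq_mul] at h1
    rw [Complex.smul_im, Complex.smul_im, sphL_im, sphL_im, smul_eq_mul, smul_eq_mul] at h2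
    rw [q_eq] at hp
    simp only [fderiv_q] at hv
    have h' := h.ne'
    have hε0 : ε ≠ 0 := by
      rintro rfl
      norm_num at hε
    field_simp at h1 h2
    have h3 : (1 + ε * p.1) * v.1 = 0 := by
      have h4 : ε * ((1 + ε * p.1) * v.1) = 0 := by
        linear_combination (1 + ε * p.1) / 2 * hv - p.2.re * h1 - p.2.im * h2 - ε * v.1 * hp +
          p.1 * v.1 * hε
      exact (mul_eq_zero.1 h4).resolve_left hε0
    have h4 : v.1 = 0 := (mul_eq_zero.1 h3).resolve_left h'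
    rw [h4] at h1 h2
    refine Prod.ext h4 (Complex.ext ?_ ?_)
    · exact (mul_eq_zero.1 (by linear_combination h1)).resolve_left h'
    · exact (mul_eq_zero.1 (by linear_combination h2)).resolve_left h'
  · have h' : 1 + ε * y.1 ≠ 0 := ne_of_gt hy
    have hq : q y = 0 := hy'
    rw [q_eq] at hq
    simp only [fderiv_q] at hv
    rw [sph_fderiv ε y h', sph_fderiv ε y h', smul_eq_mul]
    refine Complex.ext ?_ ?_
    · simp only [Complex.sub_re, Complex.sub_im, Complex.smul_re, Complex.smul_im, sphL_re, sphL_im,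
        Complex.mul_re, Complex.I_re, Complex.I_im, smul_eq_mul, sphJ]
      field_simp
      linear_combination (ε * y.2.im / 2) * hv - ε * v.2.im * hq +
        (y.1 * v.2.im - v.1 * y.2.im) * hε
    · simp only [Complex.sub_re, Complex.sub_im, Complex.smul_re, Complex.smul_im, sphL_re, sphL_im,
        Complex.mul_im, Complex.I_re, Complex.I_im, smul_eq_mul, sphJ]
      field_simp
      linear_combination (-y.2.re / 2) * hv + v.2.re * hq + (-(y.1 * y.2.re * v.1) +
        y.1 ^ 2 * v.2.re + v.2.re * y.2.im ^ 2 - y.2.re * y.2.im * v.2.im) * hε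

/-- The unit sphere of `ℝ × ℂ` with its area form `OS s a b = det (s, a, b)` is Kähler. -/
theorem kah_sph : Kah {s : ℝ × ℂ | q s = 0} (fun s a => fderiv ℝ q s a = 0)
    (fun s a b => OS s a b) ℂ := by
  refine ⟨sphJ, fun y _ v _ => ?_, fun y hy v w hv hw => ?_, fun y hy v hv h0 => ?_, fun p hp => ?_⟩
  · simp only [fderiv_q, sphJ]
    ring
  · have hq : q y = 0 := hy
    rw [q_eq] at hq
    simp only [OS_apply, sphJ]
    linear_combination (y.1 * (v.2.re * w.2.im - v.2.im * w.2.re) + (y.2.re * (v.2.im * w.1 -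
      v.1 * w.2.im) + y.2.im * (v.1 * w.2.re - v.2.re * w.1))) * hq
  · have hq : q y = 0 := hy
    rw [q_eq] at hq
    simp only [fderiv_q] at hv
    have h1 : OS y v (sphJ y v) = v.1 ^ 2 + v.2.re ^ 2 + v.2.im ^ 2 := by
      simp only [OS_apply, sphJ]
      linear_combination (v.1 ^ 2 + v.2.re ^ 2 + v.2.im ^ 2) * hq -
        (y.1 * v.1 + y.2.re * v.2.re + y.2.im * v.2.im) / 2 * hv
    change 0 < OS y v (sphJ y v)
    rw [h1]
    by_contra hcon
    refine h0 (Prod.ext ?_ (Complex.ext ?_ ?_))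
    · change v.1 = 0
      nlinarith [sq_nonneg v.1, sq_nonneg v.2.re, sq_nonneg v.2.im]
    · change v.2.re = 0
      nlinarith [sq_nonneg v.1, sq_nonneg v.2.re, sq_nonneg v.2.im]
    · change v.2.im = 0
      nlinarith [sq_nonneg v.1, sq_nonneg v.2.re, sq_nonneg v.2.im]
  · by_cases h : 0 ≤ p.1
    · exact sph_chart 1 (by norm_num) p hp (by linarith)
    · exact sph_chart (-1) (by norm_num) p hp (by linarith)

end Vale.Agent.N265X
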