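import Vale.Agent.P265.H388.Sym
import Mathlib.Analysis.SpecialFunctions.Complex.LogDeriv
import Mathlib.Analysis.SpecialFunctions.SmoothTransition
import Mathlib.Analysis.SpecialFunctions.Sqrt
import Mathlib.MeasureTheory.Integral.IntervalIntegral.FundThmCalculus

open scoped ContDiff

namespace Vale.Agent.N265X

open Vale.Agent.P265.Dis

theorem exists_rho : ∃ h ρ : ℝ → ℝ, ContDiff ℝ ∞ h ∧ (∀ s, 0 < ρ s) ∧ (∀ s, 1 ≤ |s| → ρ s = |s|) ∧
    ∀ s, s ^ 2 < 2 → HasDerivAt h (-ρ s / (4 - s ^ 2)) s := by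
  have hst : ContDiff ℝ ∞ Real.smoothTransition := Real.smoothTransition.contDiff
  have h1 : ∀ s : ℝ, 0 < s ^ 2 + Real.smoothTransition (1 - s ^ 2) := fun s => by
    have := Real.smoothTransition.nonneg (1 - s ^ 2)
    rcases eq_or_ne s 0 with rfl | hs
    · simp
    · positivity
  have h2 : ∀ s : ℝ, 0 < 4 - s ^ 2 * (1 - Real.smoothTransition (s ^ 2 - 2)) := fun s => by
    rcases le_total (s ^ 2) 3 with hs | hs
    · have := Real.smoothTransition.nonneg (s ^ 2 - 2)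
      nlinarith [sq_nonneg s]
    · rw [Real.smoothTransition.one_of_one_le (by linarith)]
      norm_num
  have h3 : ContDiff ℝ ∞ fun s : ℝ => -√(s ^ 2 + Real.smoothTransition (1 - s ^ 2)) /
      (4 - s ^ 2 * (1 - Real.smoothTransition (s ^ 2 - 2))) := by
    refine ContDiff.div (ContDiff.neg (ContDiff.sqrt ?_ fun s => (h1 s).ne')) ?_
      fun s => (h2 s).ne'
    · exact (contDiff_id.pow 2).add (hst.comp (contDiff_const.sub (contDiff_id.pow 2)))
    · exact contDiff_const.sub ((contDiff_id.pow 2).mul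
        (contDiff_const.sub (hst.comp ((contDiff_id.pow 2).sub contDiff_const))))
  have h4 := fun s : ℝ => (h3.continuous.integral_hasStrictDerivAt 0 s).hasDerivAt
  refine ⟨_, fun s => √(s ^ 2 + Real.smoothTransition (1 - s ^ 2)), ?_,
    fun s => Real.sqrt_pos.2 (h1 s), fun s hs => ?_, fun s hs => (h4 s).congr_deriv ?_⟩
  · refine contDiff_infty_iff_deriv.2 ⟨fun s => (h4 s).differentiableAt, ?_⟩
    rw [funext fun s => (h4 s).deriv]
    exact h3
  · have : 1 ≤ s ^ 2 := by rw [← sq_abs]; nlinarith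
    dsimp only
    rw [Real.smoothTransition.zero_of_nonpos (by linarith), add_zero, Real.sqrt_sq_eq_abs]
  · rw [Real.smoothTransition.zero_of_nonpos (x := s ^ 2 - 2) (by linarith), sub_zero, mul_one]

theorem WEta_smooth {g : A → ℂ} (hg : ContDiff ℝ ∞ g) (c : ℂ) {y : A}
    (hy : g y / c ∈ Complex.slitPlane) :
    ContDiffAt ℝ ∞ (fun y => (Complex.log (g y / c)).im) y := by
  have h1 : ContDiffAt ℝ ∞ Complex.log (g y / c) :=
    (Complex.contDiffAt_log hy).restrict_scalars ℝ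
  exact Complex.imCLM.contDiff.contDiffAt.comp y (h1.comp y (hg.div_const c).contDiffAt)

theorem WEta_deriv {g : ℝ → ℂ} {g' c : ℂ} (hg : HasDerivAt g g' 0)
    (hy : g 0 / c ∈ Complex.slitPlane) :
    HasDerivAt (fun t => (Complex.log (g t / c)).im) (g' / g 0).im 0 := by
  have hc : c ≠ 0 := by
    rintro rfl
    exact Complex.slitPlane_ne_zero hy (div_zero _)
  have h1 := (hg.div_const c).clog_real hy
  rw [div_div_div_cancel_right₀ hc] at h1
  exact hd_im h1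

/-- the fibre coordinate `η = h(s) + i Im log ((D / f) / (D₀ / f₀))` -/
theorem exists_eta {h ρ : ℝ → ℝ} (hh : ContDiff ℝ ∞ h)
    (hd : ∀ s, s ^ 2 < 2 → HasDerivAt h (-ρ s / (4 - s ^ 2)) s) {w : A} (hf : fW w ≠ 0)
    (hD : dW w ≠ 0) (hs : w.2.2.2 ^ 2 < 2) :
    ∃ (η : A → ℂ) (U : Set A), IsOpen U ∧ w ∈ U ∧ (∀ y ∈ U, ContDiffAt ℝ ∞ η y) ∧
      (∀ y ∈ U, y.2.2.2 ^ 2 < 2) ∧
      ∀ y ∈ U, ‖dW y‖ ^ 2 + y.2.2.2 ^ 2 = 4 → ∀ (p l : ℝ) (μ : ℂ) (t : ℝ),
        fderiv ℝ η y (TW y p l μ t) =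
          (((-ρ y.2.2.2 * t : ℝ) : ℂ) + Complex.I * ((mW y * μ).im : ℝ)) /
            ((4 - y.2.2.2 ^ 2 : ℝ) : ℂ) := by
  have hs' : ContDiff ℝ ∞ fun y : A => y.2.2.2 := by fun_prop
  have hsm : ∀ y : A, dW y / dW w ∈ Complex.slitPlane → fW y / fW w ∈ Complex.slitPlane →
      ContDiffAt ℝ ∞ (fun y : A => ((h y.2.2.2 : ℝ) : ℂ) + Complex.I *
        (((Complex.log (dW y / dW w)).im - (Complex.log (fW y / fW w)).im : ℝ) : ℂ)) y := by
    intro y h1 h2
    refine ContDiffAt.add ?_ (contDiffAt_const.mul ?_)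
    · exact Complex.ofRealCLM.contDiff.contDiffAt.comp y (hh.comp hs').contDiffAt
    · exact Complex.ofRealCLM.contDiff.contDiffAt.comp y
        ((WEta_smooth contDiff_dW _ h1).sub (WEta_smooth contDiff_fW _ h2))
  refine ⟨_, {y | dW y / dW w ∈ Complex.slitPlane ∧ fW y / fW w ∈ Complex.slitPlane ∧
    y.2.2.2 ^ 2 < 2}, ?_, ⟨?_, ?_, hs⟩, fun y hy => hsm y hy.1 hy.2.1, fun y hy => hy.2.2, ?_⟩
  · exact (Complex.isOpen_slitPlane.preimage (contDiff_dW.continuous.div_const _)).inter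
      ((Complex.isOpen_slitPlane.preimage (contDiff_fW.continuous.div_const _)).inter
        (isOpen_lt (hs'.continuous.pow 2) continuous_const))
  · rw [div_self hD]; exact Complex.one_mem_slitPlane
  · rw [div_self hf]; exact Complex.one_mem_slitPlane
  rintro y ⟨h1, h2, h3⟩ h4 p l μ t
  have e0 : y + (0 : ℝ) • TW y p l μ t = y := by rw [zero_smul, add_zero]
  have k1 := ((hsm y h1 h2).differentiableAt (by simp)).hasFDerivAt
  have k2 := HasFDerivAt.comp_hasDerivAt_of_eq (0 : ℝ) k1 (hd_line y (TW y p l μ t)) e0.symm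
  have k3 := HasDerivAt.comp_of_eq (0 : ℝ) (hd _ h3) (hd_s y (TW y p l μ t)) (by rw [e0])
  have k4 := WEta_deriv (c := dW w) (hd_d y (TW y p l μ t)) (by rwa [e0])
  have k5 := WEta_deriv (c := fW w) (hd_f y (TW y p l μ t)) (by rwa [e0])
  have k6 := dadd k3.ofReal_comp (dcm Complex.I (dsub k4 k5).ofReal_comp)
  rw [k2.unique k6, e0, TW_s, ddW_TW, dfW_TW]
  have hD' : dW y ≠ 0 := fun e => Complex.slitPlane_ne_zero h1 (by rw [e, zero_div])
  have hf' : fW y ≠ 0 := fun e => Complex.slitPlane_ne_zero h2 (by rw [e, zero_div])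
  have hq : (4 - y.2.2.2 ^ 2 : ℝ) ≠ 0 := by linarith
  have e1 : (6 * Complex.I * l * dW y + 12 * y.2.1 * y.2.2.1 ^ 2 * μ) / dW y -
      6 * Complex.I * l * fW y / fW y = mW y * μ / ((4 - y.2.2.2 ^ 2 : ℝ) : ℂ) := by
    have e2 : ((4 - y.2.2.2 ^ 2 : ℝ) : ℂ) = dW y * (starRingEnd ℂ) (dW y) := by
      rw [Complex.mul_conj, Complex.normSq_eq_norm_sq, ← h4, add_sub_cancel_right]
    have e3 : (starRingEnd ℂ) (dW y) ≠ 0 := (map_ne_zero _).2 hD'
    rw [e2, mW]
    field_simp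
    ring
  rw [← Complex.sub_im, e1, Complex.div_ofReal_im]
  have hq' : ((4 - y.2.2.2 ^ 2 : ℝ) : ℂ) ≠ 0 := Complex.ofReal_ne_zero.2 hq
  rw [div_mul_eq_mul_div, Complex.ofReal_div, Complex.ofReal_div, add_div, mul_div_assoc]

end Vale.Agent.N265X
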