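import Vale.Agent.P265.H388.Sym
import Mathlib.Analysis.SpecialFunctions.Complex.LogDeriv

open scoped ContDiff

namespace Vale.Agent.N265X

open Vale.Agent.P265.Dis

namespace WUp

theorem fderiv_of_line {g : A → ℂ} {y v : A} {d : ℂ} (hg : ContDiffAt ℝ ∞ g y)
    (h : HasDerivAt (fun t : ℝ => g (y + t • v)) d 0) : fderiv ℝ g y v = d := by
  have h1 : HasFDerivAt g (fderiv ℝ g y) (y + (0 : ℝ) • v) := by
    rw [zero_smul, add_zero]
    exact (hg.differentiableAt (by simp)).hasFDerivAt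
  exact (h1.comp_hasDerivAt (0 : ℝ) (hd_line y v)).unique h

theorem contDiffAt_lg {g : A → ℂ} {y : A} (c : ℂ) (hg : ContDiff ℝ ∞ g)
    (h : g y / c ∈ Complex.slitPlane) : ContDiffAt ℝ ∞ (fun x => Complex.log (g x / c)) y :=
  ContDiffAt.comp (g := Complex.log) (f := fun x => g x / c) y
    ((Complex.contDiffAt_log h).restrict_scalars ℝ) (hg.contDiffAt.div_const c)

theorem hd_lg {g : ℝ → ℂ} {g' c : ℂ} (hg : HasDerivAt g g' 0) (h : g 0 / c ∈ Complex.slitPlane) :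
    HasDerivAt (fun t => Complex.log (g t / c)) (g' / g 0) 0 := by
  have h0 := Complex.slitPlane_ne_zero h
  have hc : c ≠ 0 := fun e => h0 (by rw [e, div_zero])
  have hg0 : g 0 ≠ 0 := fun e => h0 (by rw [e, zero_div])
  refine ((hg.div_const c).clog_real h).congr_deriv ?_
  field_simp

theorem isOpen_sl {g : A → ℂ} (c : ℂ) (hg : Continuous g) :
    IsOpen {y : A | g y / c ∈ Complex.slitPlane} :=
  Complex.isOpen_slitPlane.preimage (hg.div_const c)

theorem hd_lf {w y : A} (h : fW y / fW w ∈ Complex.slitPlane) (p l : ℝ) (μ : ℂ) (t : ℝ) :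
    HasDerivAt (fun r : ℝ => Complex.log (fW (y + r • TW y p l μ t) / fW w))
      (6 * Complex.I * l) 0 := by
  have h0 : fW y ≠ 0 := fun e => Complex.slitPlane_ne_zero h (by rw [e, zero_div])
  refine (hd_lg (hd_f y (TW y p l μ t)) (by simpa using h)).congr_deriv ?_
  rw [dfW_TW, zero_smul, add_zero]
  field_simp

theorem hd_lc {w y : A} (h : y.1 / w.1 ∈ Complex.slitPlane) (p l : ℝ) (μ : ℂ) (t : ℝ) :
    HasDerivAt (fun r : ℝ => Complex.log ((y + r • TW y p l μ t).1 / w.1))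
      (Complex.I * p) 0 := by
  have h0 : y.1 ≠ 0 := fun e => Complex.slitPlane_ne_zero h (by rw [e, zero_div])
  refine (hd_lg (hd_c y (TW y p l μ t)) (by simpa using h)).congr_deriv ?_
  rw [TW_eq, zero_smul, add_zero]
  field_simp

end WUp

open WUp

/-- the base coordinate `ξ = Im log (c conj c₀) + i Im log (f conj f₀) / 6` -/
theorem exists_xi {w : A} (hc : w.1 ≠ 0) (hf : fW w ≠ 0) :
    ∃ (ξ : A → ℂ) (U : Set A), IsOpen U ∧ w ∈ U ∧ (∀ y ∈ U, ContDiffAt ℝ ∞ ξ y) ∧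
      ∀ y ∈ U, ∀ (p l : ℝ) (μ : ℂ) (t : ℝ), fderiv ℝ ξ y (TW y p l μ t) = p + Complex.I * l := by
  have hs : ∀ y : A, y.1 / w.1 ∈ Complex.slitPlane → fW y / fW w ∈ Complex.slitPlane →
      ContDiffAt ℝ ∞ (fun x : A => (((Complex.log (x.1 / w.1)).im : ℝ) : ℂ) +
        Complex.I / 6 * (((Complex.log (fW x / fW w)).im : ℝ) : ℂ)) y := by
    intro y h1 h2
    have k : ContDiff ℝ ∞ (fun z : ℂ => ((z.im : ℝ) : ℂ)) :=
      Complex.ofRealCLM.contDiff.comp Complex.imCLM.contDiff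
    exact (k.contDiffAt.comp y (contDiffAt_lg (g := fun x : A => x.1) w.1 contDiff_fst h1)).add
      (contDiffAt_const.mul (k.contDiffAt.comp y (contDiffAt_lg (fW w) contDiff_fW h2)))
  refine ⟨_, {y : A | y.1 / w.1 ∈ Complex.slitPlane} ∩ {y : A | fW y / fW w ∈ Complex.slitPlane},
    (isOpen_sl _ continuous_fst).inter (isOpen_sl _ contDiff_fW.continuous), ⟨?_, ?_⟩,
    fun y hy => hs y hy.1 hy.2, fun y hy p l μ t => fderiv_of_line (hs y hy.1 hy.2) ?_⟩
  · show w.1 / w.1 ∈ Complex.slitPlane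
    rw [div_self hc]
    exact Complex.one_mem_slitPlane
  · show fW w / fW w ∈ Complex.slitPlane
    rw [div_self hf]
    exact Complex.one_mem_slitPlane
  · refine (dadd (hd_im (hd_lc hy.1 p l μ t)).ofReal_comp
      (dcm (Complex.I / 6) (hd_im (hd_lf hy.2 p l μ t)).ofReal_comp)).congr_deriv ?_
    have e1 : (Complex.I * (p : ℂ)).im = p := by simp
    have e2 : (6 * Complex.I * (l : ℂ)).im = 6 * l := by simp
    rw [e1, e2]
    push_cast
    ring

/-- the fibre coordinate `u = a z₁ e³ + b z₂ e²`, `e = exp (- log (f / f₀) / 6)`,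
`a = conj (z₂₀ ^ 2)`, `b = - conj z₁₀` -/
theorem exists_up {w : A} (hf : fW w ≠ 0) :
    ∃ (u α : A → ℂ) (U : Set A), IsOpen U ∧ w ∈ U ∧ (∀ y ∈ U, ContDiffAt ℝ ∞ u y) ∧ α w ≠ 0 ∧
      ∀ y ∈ U, ∀ (p l : ℝ) (μ : ℂ) (t : ℝ), fderiv ℝ u y (TW y p l μ t) = α y * μ := by
  obtain ⟨a, ha⟩ : ∃ a, a = (starRingEnd ℂ) (w.2.2.1 ^ 2) := ⟨_, rfl⟩
  obtain ⟨b, hb⟩ : ∃ b, b = - (starRingEnd ℂ) w.2.1 := ⟨_, rfl⟩
  have hs : ∀ y : A, fW y / fW w ∈ Complex.slitPlane →
      ContDiffAt ℝ ∞ (fun x : A =>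
        a * (x.2.1 * Complex.exp (-(1 / 2) * Complex.log (fW x / fW w))) +
        b * (x.2.2.1 * Complex.exp (-(1 / 3) * Complex.log (fW x / fW w)))) y := by
    intro y h
    have k := contDiffAt_lg (fW w) contDiff_fW h
    have k1 : ContDiffAt ℝ ∞ (fun x : A => x.2.1) y := by fun_prop
    have k2 : ContDiffAt ℝ ∞ (fun x : A => x.2.2.1) y := by fun_prop
    exact (contDiffAt_const.mul (k1.mul (contDiffAt_const.mul k).cexp)).add
      (contDiffAt_const.mul (k2.mul (contDiffAt_const.mul k).cexp))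
  refine ⟨_, fun x => 3 * a * x.2.2.1 ^ 2 * Complex.exp (-(1 / 2) * Complex.log (fW x / fW w)) -
      2 * b * x.2.1 * Complex.exp (-(1 / 3) * Complex.log (fW x / fW w)),
    {y : A | fW y / fW w ∈ Complex.slitPlane}, isOpen_sl _ contDiff_fW.continuous, ?_,
    fun y hy => hs y hy, ?_, fun y hy p l μ t => fderiv_of_line (hs y hy) ?_⟩
  · show fW w / fW w ∈ Complex.slitPlane
    rw [div_self hf]
    exact Complex.one_mem_slitPlane
  · simp only [div_self hf, Complex.log_one, mul_zero, Complex.exp_zero, mul_one]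
    have e : 3 * a * w.2.2.1 ^ 2 - 2 * b * w.2.1 =
        ((3 * Complex.normSq (w.2.2.1 ^ 2) + 2 * Complex.normSq w.2.1 : ℝ) : ℂ) := by
      rw [ha, hb, Complex.ofReal_add, Complex.ofReal_mul, Complex.ofReal_mul,
        Complex.normSq_eq_conj_mul_self, Complex.normSq_eq_conj_mul_self]
      push_cast
      ring
    rw [e, Complex.ofReal_ne_zero]
    intro h0
    have n1 := Complex.normSq_nonneg (w.2.2.1 ^ 2)
    have n2 := Complex.normSq_nonneg w.2.1
    have z1 : w.2.1 = 0 := Complex.normSq_eq_zero.1 (by linarith)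
    have z2 : w.2.2.1 ^ 2 = 0 := Complex.normSq_eq_zero.1 (by linarith)
    apply hf
    rw [fW, z1, pow_succ w.2.2.1 2, z2]
    ring
  · have k := hd_lf hy p l μ t
    refine (dadd (dcm a (dmul (hd_z1 y (TW y p l μ t)) (dcm (-(1 / 2)) k).cexp))
      (dcm b (dmul (hd_z2 y (TW y p l μ t)) (dcm (-(1 / 3)) k).cexp))).congr_deriv ?_
    simp only [zero_smul, add_zero]
    rw [TW_eq]
    ring

end Vale.Agent.N265X
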