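import Vale.Agent.N265X.Kah
import Vale.Agent.N265X.WUp
import Vale.Agent.N265X.WEta

open scoped ContDiff

namespace Vale.Agent.N265X

open Vale.Agent.P265.Dis ComplexConjugate

/-- the `μ`-coordinate of `J` on the fibre -/
noncomputable def wkMu (m : ℂ) (s r : ℝ) (μ : ℂ) (t : ℝ) : ℂ :=
  if 1 ≤ s then Complex.I * μ else if s ≤ -1 then -Complex.I * μ else
    (((-(s * (m * μ).im / r) : ℝ) : ℂ) - Complex.I * ((r * t : ℝ) : ℂ)) / m

/-- the conditions on the parameters -/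
structure WkPar (m : ℂ) (s r : ℝ) : Prop where
  pos : 0 < r
  abs : 1 ≤ |s| → r = |s|
  ne : s ^ 2 < 3 → m ≠ 0

section
variable {m : ℂ} {s r : ℝ} (h : WkPar m s r)
include h

theorem WkPar.cases : (1 ≤ s ∧ r = s ∧ ∀ μ t, wkMu m s r μ t = Complex.I * μ) ∨
    (s ≤ -1 ∧ r = -s ∧ ∀ μ t, wkMu m s r μ t = -Complex.I * μ) ∨ (m ≠ 0 ∧ ∀ μ t,
      m * wkMu m s r μ t = ((-(s * (m * μ).im / r) : ℝ) : ℂ) - Complex.I * ((r * t : ℝ) : ℂ)) := by
  by_cases h1 : 1 ≤ s
  · have e : |s| = s := abs_of_pos (by linarith)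
    exact Or.inl ⟨h1, (h.abs (e.symm ▸ h1)).trans e, fun _ _ => if_pos h1⟩
  by_cases h2 : s ≤ -1
  · have e : |s| = -s := abs_of_neg (by linarith)
    exact Or.inr (Or.inl ⟨h2, (h.abs (by rw [e]; linarith)).trans e,
      fun _ _ => (if_neg h1).trans (if_pos h2)⟩)
  have hm := h.ne (by nlinarith)
  refine Or.inr (Or.inr ⟨hm, fun μ t => ?_⟩)
  rw [wkMu, if_neg h1, if_neg h2, mul_div_cancel₀ _ hm]

theorem WkPar.mul {μ : ℂ} {t : ℝ} (ht : (m * μ).re + s * t = 0) :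
    (m * wkMu m s r μ t).re = -(s * (m * μ).im / r) ∧ (m * wkMu m s r μ t).im = -(r * t) := by
  have hr := h.pos.ne'
  rcases h.cases with ⟨-, e, g⟩ | ⟨-, e, g⟩ | ⟨-, g⟩
  · rw [g, mul_left_comm, Complex.I_mul_re, Complex.I_mul_im]
    subst e
    exact ⟨by field_simp, by linarith⟩
  · rw [g, mul_left_comm, neg_mul, Complex.neg_re, Complex.neg_im, Complex.I_mul_re,
      Complex.I_mul_im]
    have e' : s = -r := by linarith
    subst e'
    exact ⟨by field_simp, by linarith⟩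
  · rw [g]
    constructor <;> simp only [Complex.sub_re, Complex.sub_im, Complex.I_mul_re, Complex.I_mul_im,
      Complex.ofReal_re, Complex.ofReal_im] <;> ring

omit h in
theorem wk_cross (m μ ν : ℂ) : Complex.normSq m * (μ.re * ν.im - μ.im * ν.re) =
    (m * μ).re * (m * ν).im - (m * μ).im * (m * ν).re := by
  simp only [Complex.normSq_apply, Complex.mul_re, Complex.mul_im]
  ring

theorem WkPar.inv {μ ν : ℂ} {t u : ℝ} (ht : (m * μ).re + s * t = 0)
    (hu : (m * ν).re + s * u = 0) :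
    (wkMu m s r μ t).re * (wkMu m s r ν u).im - (wkMu m s r μ t).im * (wkMu m s r ν u).re =
      μ.re * ν.im - μ.im * ν.re := by
  have hr := h.pos.ne'
  rcases h.cases with ⟨-, -, g⟩ | ⟨-, -, g⟩ | ⟨hm, -⟩
  · simp only [g, Complex.I_mul_re, Complex.I_mul_im]
    ring
  · simp only [g, neg_mul, Complex.neg_re, Complex.neg_im, Complex.I_mul_re, Complex.I_mul_im]
    ring
  · refine mul_left_cancel₀ (Complex.normSq_pos.2 hm).ne' ?_
    rw [wk_cross, wk_cross, (h.mul ht).1, (h.mul ht).2, (h.mul hu).1, (h.mul hu).2,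
      eq_neg_of_add_eq_zero_left ht, eq_neg_of_add_eq_zero_left hu]
    field_simp
    ring

theorem WkPar.nonneg {μ : ℂ} {t : ℝ} (ht : (m * μ).re + s * t = 0) :
    0 ≤ s * (μ.re * (wkMu m s r μ t).im - μ.im * (wkMu m s r μ t).re) ∧
    (s * (μ.re * (wkMu m s r μ t).im - μ.im * (wkMu m s r μ t).re) = 0 → t = 0 →
      (m * μ).im = 0 → μ = 0) := by
  have hr := h.pos
  have key : ∀ c : ℝ, 0 < c → 0 ≤ c * Complex.normSq μ ∧
      (c * Complex.normSq μ = 0 → t = 0 → (m * μ).im = 0 → μ = 0) := fun c hc =>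
    ⟨mul_nonneg hc.le (Complex.normSq_nonneg _), fun e _ _ =>
      Complex.normSq_eq_zero.1 ((mul_eq_zero.1 e).resolve_left hc.ne')⟩
  rcases h.cases with ⟨h1, -, g⟩ | ⟨h1, -, g⟩ | ⟨hm, -⟩
  · convert key s (by linarith) using 3 <;>
      simp only [g, Complex.I_mul_re, Complex.I_mul_im, Complex.normSq_apply] <;> ring
  · have e : s * (μ.re * (wkMu m s r μ t).im - μ.im * (wkMu m s r μ t).re) =
        -s * Complex.normSq μ := by
      simp only [g, neg_mul, Complex.neg_re, Complex.neg_im, Complex.I_mul_re, Complex.I_mul_im,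
        Complex.normSq_apply]
      ring
    rw [e]
    exact key (-s) (by linarith)
  · have hn := Complex.normSq_pos.2 hm
    refine ⟨nonneg_of_mul_nonneg_right (a := Complex.normSq m) ?_ hn |>.trans_eq rfl,
      fun _ e1 e2 => ?_⟩
    · rw [mul_left_comm, wk_cross, (h.mul ht).1, (h.mul ht).2, eq_neg_of_add_eq_zero_left ht]
      have : s * (-(s * t) * -(r * t) - (m * μ).im * -(s * (m * μ).im / r)) =
          s ^ 2 * (r * t ^ 2 + (m * μ).im ^ 2 / r) := by ring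
      rw [this]
      positivity
    · rw [e1, mul_zero, add_zero] at ht
      exact (mul_eq_zero.1 (Complex.ext ht e2)).resolve_left hm

end

/-- the set `W` -/
def wkZ : Set A := {w : A | ‖w.1‖ = 1 ∧ ‖fW w‖ = 1 ∧ ‖dW w‖ ^ 2 + w.2.2.2 ^ 2 = 4}

theorem wk_m {w : A} (hw : w ∈ wkZ) (hs : w.2.2.2 ^ 2 < 3) : mW w ≠ 0 := by
  obtain ⟨-, hf, hD⟩ := hw
  have h1 : w.2.1 ≠ 0 := by
    intro h
    have : dW w = - fW w := by simp [dW, fW, h]
    rw [this, norm_neg, hf] at hD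
    linarith
  have h2 : w.2.2.1 ≠ 0 := by
    intro h
    have : dW w = fW w := by simp [dW, fW, h]
    rw [this, hf] at hD
    linarith
  have h3 : dW w ≠ 0 := by
    intro h
    rw [h, norm_zero] at hD
    linarith
  simp [mW, h1, h2, h3]

theorem wk_dom {w : A} (hw : w ∈ wkZ) : w ∈ Dom := by
  refine ⟨norm_ne_zero_iff.1 (hw.1 ▸ one_ne_zero), norm_ne_zero_iff.1 (hw.2.1 ▸ one_ne_zero), ?_⟩
  have := Complex.normSq_nonneg (mW w)
  by_cases hs : w.2.2.2 = 0
  · have := Complex.normSq_pos.2 (wk_m hw (by rw [hs]; norm_num))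
    rw [n2W]
    positivity
  · rw [n2W]
    positivity

/-- the complex structure -/
noncomputable def wkJ (ρ : ℝ → ℝ) (y a : A) : A :=
  TW y (-(thW y a / (6 * Complex.normSq (fW y)))) (alW y a / Complex.normSq y.1)
    (wkMu (mW y) y.2.2.2 (ρ y.2.2.2) (ThW y a / (6 * fW y)) a.2.2.2)
    ((mW y * (ThW y a / (6 * fW y))).im / ρ y.2.2.2)

theorem wkJ_TW (ρ : ℝ → ℝ) {y : A} (hy : y ∈ wkZ) (p l : ℝ) (μ : ℂ) (t : ℝ) :
    wkJ ρ y (TW y p l μ t) = TW y (-l) p (wkMu (mW y) y.2.2.2 (ρ y.2.2.2) μ t)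
      ((mW y * μ).im / ρ y.2.2.2) := by
  obtain ⟨hc, hf, -⟩ := wk_dom hy
  have h1 := (Complex.normSq_pos.2 hc).ne'
  have h2 := (Complex.normSq_pos.2 hf).ne'
  have e1 : 6 * l * Complex.normSq (fW y) / (6 * Complex.normSq (fW y)) = l := by field_simp
  have e2 : p * Complex.normSq y.1 / Complex.normSq y.1 = p := by field_simp
  have e3 : 6 * fW y * μ / (6 * fW y) = μ := by field_simp
  rw [wkJ, thW_TW, alW_TW, ThW_TW, TW_s, e1, e2, e3]

theorem wk_tan {y v : A} (hy : y ∈ wkZ) (hv : TanW y v) :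
    ∃ (p l : ℝ) (μ : ℂ) (t : ℝ), v = TW y p l μ t ∧ (mW y * μ).re + y.2.2.2 * t = 0 := by
  obtain ⟨p, l, μ, e⟩ := hv.exists_TW (wk_dom hy)
  exact ⟨p, l, μ, _, e, (tanW_TW_iff y p l μ _).1 (e ▸ hv)⟩

theorem wk_zero (y : A) : TW y 0 0 0 0 = 0 := by
  rw [TW_eq]
  simp

theorem wk_chart (ρ : ℝ → ℝ) {x : A} (hx : x ∈ wkZ) (g : A → ℂ) (U : Set A) (hU : IsOpen U)
    (hxU : x ∈ U) (hg : ∀ y ∈ U, ContDiffAt ℝ ∞ g y)
    (inj : ∀ p l μ t, (mW x * μ).re + x.2.2.2 * t = 0 → fderiv ℝ g x (TW x p l μ t) = 0 →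
      μ = 0 ∧ t = 0)
    (hol : ∀ y ∈ U, y ∈ wkZ → ∀ p l μ t, (mW y * μ).re + y.2.2.2 * t = 0 →
      fderiv ℝ g y (TW y (-l) p (wkMu (mW y) y.2.2.2 (ρ y.2.2.2) μ t)
        ((mW y * μ).im / ρ y.2.2.2)) = Complex.I * fderiv ℝ g y (TW y p l μ t)) :
    HolChart wkZ TanW (wkJ ρ) (ℂ × ℂ) x := by
  obtain ⟨ξ, U', h1, h2, h3, h4⟩ := exists_xi (wk_dom hx).1 (wk_dom hx).2.1
  have hd : ∀ y ∈ U' ∩ U, ∀ v, fderiv ℝ (fun y => (ξ y, g y)) y v =
      (fderiv ℝ ξ y v, fderiv ℝ g y v) := fun y hy v => by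
    rw [((h3 y hy.1).differentiableAt (by simp)).fderiv_prodMk
      ((hg y hy.2).differentiableAt (by simp))]
    rfl
  refine ⟨fun y => (ξ y, g y), U' ∩ U, h1.inter hU, ⟨h2, hxU⟩,
    fun y hy => (h3 y hy.1).prodMk (hg y hy.2), fun v hv e => ?_, fun y hy hz v hv => ?_⟩
  · obtain ⟨p, l, μ, t, rfl, ht⟩ := wk_tan hx hv
    rw [hd x ⟨h2, hxU⟩, Prod.mk_eq_zero, h4 x h2] at e
    obtain ⟨rfl, rfl⟩ := inj p l μ t ht e.2
    have e1 : p = 0 := by simpa using congrArg Complex.re e.1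
    have e2 : l = 0 := by simpa using congrArg Complex.im e.1
    rw [e1, e2, wk_zero]
  · obtain ⟨p, l, μ, t, rfl, ht⟩ := wk_tan hz hv
    rw [wkJ_TW ρ hz, hd y hy, hd y hy, hol y hy.2 hz p l μ t ht, h4 y hy.1, h4 y hy.1,
      Prod.smul_mk, smul_eq_mul, smul_eq_mul]
    congr 1
    push_cast
    linear_combination (-(l : ℂ)) * Complex.I_mul_I

/-- The four-dimensional factor `W` is Kähler. -/
theorem kah_W : Kah {w : A | ‖w.1‖ = 1 ∧ ‖fW w‖ = 1 ∧ ‖dW w‖ ^ 2 + w.2.2.2 ^ 2 = 4} TanW omW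
    (ℂ × ℂ) := by
  obtain ⟨h, ρ, hh, hρ, habs, hd⟩ := exists_rho
  have par : ∀ y ∈ wkZ, WkPar (mW y) y.2.2.2 (ρ y.2.2.2) := fun y hy =>
    ⟨hρ _, habs _, wk_m hy⟩
  have n1 : ∀ y ∈ wkZ, Complex.normSq y.1 = 1 := fun y hy => by
    rw [Complex.normSq_eq_norm_sq, hy.1, one_pow]
  have n2 : ∀ y ∈ wkZ, Complex.normSq (fW y) = 1 := fun y hy => by
    rw [Complex.normSq_eq_norm_sq, hy.2.1, one_pow]
  have hs : Continuous fun y : A => y.2.2.2 := by fun_prop
  refine ⟨wkJ ρ, fun y hy v hv => ?_, fun y hy v w hv hw => ?_, fun y hy v hv h0 => ?_,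
    fun x hx => ?_⟩
  · obtain ⟨p, l, μ, t, rfl, ht⟩ := wk_tan hy hv
    rw [wkJ_TW ρ hy, tanW_TW_iff, ((par y hy).mul ht).1]
    ring
  · obtain ⟨p, l, μ, t, rfl, ht⟩ := wk_tan hy hv
    obtain ⟨p', l', μ', t', rfl, ht'⟩ := wk_tan hy hw
    have := (hρ y.2.2.2).ne'
    rw [wkJ_TW ρ hy, wkJ_TW ρ hy, omW_TW, omW_TW, (par y hy).inv ht ht', ((par y hy).mul ht).2,
      ((par y hy).mul ht').2]
    field_simp
    ring
  · obtain ⟨p, l, μ, t, rfl, ht⟩ := wk_tan hy hv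
    obtain ⟨g1, g2⟩ := (par y hy).nonneg ht
    have hr := hρ y.2.2.2
    rw [wkJ_TW ρ hy, omW_TW, ((par y hy).mul ht).2, n1 y hy, n2 y hy]
    have k1 : 0 ≤ ρ y.2.2.2 * t ^ 2 := by positivity
    have k2 : 0 ≤ (mW y * μ).im ^ 2 / ρ y.2.2.2 := by positivity
    have k3 : (mW y * μ).im / ρ y.2.2.2 * (mW y * μ).im = (mW y * μ).im ^ 2 / ρ y.2.2.2 := by ring
    rw [k3]
    by_contra hn
    have k4 := sq_nonneg p
    have k5 := sq_nonneg l
    have e1 : p = 0 := by nlinarith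
    have e2 : l = 0 := by nlinarith
    subst e1 e2
    have e3 : ρ y.2.2.2 * t ^ 2 = 0 := by nlinarith
    have e4 : (mW y * μ).im ^ 2 / ρ y.2.2.2 = 0 := by nlinarith
    have e5 : t = 0 := by simpa [hr.ne'] using e3
    have e6 : (mW y * μ).im = 0 :=
      pow_eq_zero_iff two_ne_zero |>.1 ((div_eq_zero_iff.1 e4).resolve_right hr.ne')
    have e7 := g2 (by nlinarith) e5 e6
    subst e5 e7
    exact h0 (wk_zero y)
  · change x ∈ wkZ at hx
    by_cases h1 : 1 < x.2.2.2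
    · obtain ⟨u, α, U, g1, g2, g3, g4, g5⟩ := exists_up (wk_dom hx).2.1
      refine wk_chart ρ hx u (U ∩ {y | 1 < y.2.2.2}) (g1.inter (isOpen_lt continuous_const hs))
        ⟨g2, h1⟩ (fun y hy => g3 y hy.1) (fun p l μ t ht e => ?_) fun y hy hz p l μ t ht => ?_
      · rw [g5 x g2] at e
        obtain rfl := (mul_eq_zero.1 e).resolve_left g4
        rw [mul_zero, Complex.zero_re, zero_add] at ht
        exact ⟨rfl, (mul_eq_zero.1 ht).resolve_left (by linarith)⟩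
      · rw [g5 y hy.1, g5 y hy.1, wkMu, if_pos (le_of_lt hy.2), mul_left_comm]
    by_cases h2 : x.2.2.2 < -1
    · obtain ⟨u, α, U, g1, g2, g3, g4, g5⟩ := exists_up (wk_dom hx).2.1
      have hc : ∀ y ∈ U, ∀ v, fderiv ℝ (fun y => Complex.conjCLE (u y)) y v =
          conj (fderiv ℝ u y v) := fun y hy v => by
        have := (Complex.conjCLE.toContinuousLinearMap.hasFDerivAt.comp y
          ((g3 y hy).differentiableAt (by simp)).hasFDerivAt).fderiv
        exact (congrArg (fun L : A →L[ℝ] ℂ => L v) this).trans rfl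
      refine wk_chart ρ hx (fun y => Complex.conjCLE (u y)) (U ∩ {y | y.2.2.2 < -1})
        (g1.inter (isOpen_lt hs continuous_const)) ⟨g2, h2⟩
        (fun y hy => Complex.conjCLE.contDiff.contDiffAt.comp y (g3 y hy.1))
        (fun p l μ t ht e => ?_) fun y hy hz p l μ t ht => ?_
      · rw [hc x g2, g5 x g2, map_eq_zero] at e
        obtain rfl := (mul_eq_zero.1 e).resolve_left g4
        rw [mul_zero, Complex.zero_re, zero_add] at ht
        exact ⟨rfl, (mul_eq_zero.1 ht).resolve_left (by linarith)⟩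
      · have k : y.2.2.2 < -1 := hy.2
        rw [hc y hy.1, hc y hy.1, g5 y hy.1, g5 y hy.1, wkMu, if_neg (by linarith), if_pos k.le]
        simp only [map_mul, map_neg, Complex.conj_I]
        ring
    have h3 : x.2.2.2 ^ 2 ≤ 1 := by nlinarith
    have hD : dW x ≠ 0 := fun e => by
      have := hx.2.2
      rw [e, norm_zero] at this
      linarith
    obtain ⟨η, U, g1, g2, g3, g4, g5⟩ := exists_eta hh hd (wk_dom hx).2.1 hD (by linarith)
    refine wk_chart ρ hx η U g1 g2 g3 (fun p l μ t ht e => ?_) fun y hy hz p l μ t ht => ?_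
    · rw [g5 x g2 hx.2.2, div_eq_zero_iff] at e
      have e := e.resolve_right (Complex.ofReal_ne_zero.2 (by linarith))
      have e1 : -ρ x.2.2.2 * t = 0 := by
        simpa only [Complex.add_re, Complex.ofReal_re, Complex.I_mul_re, Complex.ofReal_im, neg_zero,
          add_zero, Complex.zero_re] using congrArg Complex.re e
      have e2 : (mW x * μ).im = 0 := by
        simpa only [Complex.add_im, Complex.ofReal_re, Complex.I_mul_im, Complex.ofReal_im,
          zero_add, Complex.zero_im] using congrArg Complex.im e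
      have e3 : t = 0 := (mul_eq_zero.1 e1).resolve_left (neg_ne_zero.2 (hρ _).ne')
      rw [e3, mul_zero, add_zero] at ht
      exact ⟨(mul_eq_zero.1 (Complex.ext ht e2)).resolve_left (wk_m hx (by linarith)), e3⟩
    · have e : -ρ y.2.2.2 * ((mW y * μ).im / ρ y.2.2.2) = -(mW y * μ).im := by
        have := (hρ y.2.2.2).ne'
        field_simp
      rw [g5 y hy hz.2.2, g5 y hy hz.2.2, ((par y hz).mul ht).2, e]
      generalize (mW y * μ).im = θ
      push_cast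
      linear_combination (-(θ : ℂ) / (4 - (y.2.2.2 : ℂ) ^ 2)) * Complex.I_mul_I

end Vale.Agent.N265X
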