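import Vale.Agent.N265X.Bridge
import Vale.Agent.N265X.KProd
import Vale.Agent.N265X.LevelHol
import Vale.Agent.N265X.Quat
import Vale.Agent.N265X.Sph
import Vale.Agent.N265X.WKah
import Vale.Agent.P265W27.Main

/-!
# The Kähler counterexamples
-/

open Set Manifold Module
open scoped Quaternion ContDiff Topology

noncomputable section

set_option maxSynthPendingDepth 3

namespace Vale.Agent.N265X

open Vale.Agent.P265 Vale.Agent.P265.H363 Vale.Agent.P265.LS Vale.Agent.P265.AS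

section Base

open Vale.Agent.P265.Dis Vale.Agent.P265.H185

theorem ambBase : ∃ (A : Amb Dis.G 16) (κ : ℝ), 0 < κ ∧ A.Ω = Om κ := by
  have hz : ∀ x : Dis.E, Dis.G x = 0 → af Qp JL (-g0) 1 x = 0 → Sf Qp (-g0) 1 x = x.2 →
      x ∈ zset := by
    intro x hx ha hS
    refine ⟨hx, ?_, ?_⟩
    · have h := bridge_comm hx hS
      rw [Pw_eq] at h
      rw [cm, h, sub_self]
    · intro ξ hξ
      rw [← hC_eq_th]
      exact bridge_hC hx ha (tanW_of hξ)
  have hinj : ∀ x : Dis.E, Dis.G x = 0 → af Qp JL (-g0) 1 x = 0 → Sf Qp (-g0) 1 x = x.2 →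
      ∀ ξ : Dis.E, fderiv ℝ Dis.G x ξ = 0 → fderiv ℝ (af Qp JL (-g0) 1) x ξ = 0 →
      fderiv ℝ (Sf Qp (-g0) 1) x ξ = ξ.2 → ξ = 0 := by
    intro x hx ha hS ξ hξ hda hdS
    refine zset_nondeg' (hz x hx ha hS) hξ ?_ ?_
    · have h := bridge_comm_deriv hx hS hdS
      have h2 : (fun y : Dis.E => cm y.1 y.2) =
          fun x : Dis.E => Pw x.1 * star g0 * x.2 - x.2 * (Pw x.1 * star g0) := by
        funext y
        rw [cm, Pw_eq]
      rw [h2]
      exact h
    · intro b hb hbt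
      have h := bridge_hC_deriv hx ha hda (b := b) (hb.differentiable (by simp) x.1)
        (fun w => tanW_of (hbt w 0))
      have h2 : (fun y : Dis.E => th y.1 y.2 (b y.1)) = fun x : Dis.E => hC x (b x.1) := by
        funext y
        rw [hC_eq_th]
      rw [h2]
      exact h
  obtain ⟨δ, hδ, hκ⟩ := quat_flow contDiff_G (isCompact_norm_G_le le_rfl) fderiv_G_comm G_conj
    contDiff_Qp Qp_zero (neg_ne_zero.2 g0_ne) (fun b hb x hx => Qp_ne hb hx) isOpen_Dom
    (fun x hx => mem_Dom hx) contDiffOn_JL (fun x _ β => fderiv_G_JL x.1 β x.2)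
    (omW := omW) (by
      intro w c a b
      simp only [omW, alW, thW, ThW, deW, dfW, ddW, Prod.smul_fst, Prod.smul_snd, smul_eq_mul,
        Complex.real_smul, Complex.mul_re, Complex.mul_im, Complex.sub_re, Complex.sub_im,
        Complex.add_re, Complex.add_im, Complex.ofReal_re, Complex.ofReal_im]
      ring)
    (fun x hx β η hη => omW_JL (mem_Dom hx) β (tanW_of hη))
    (fun x hx => sphere_of hx) (fun x _ η hη => sphere_tangent η hη) hinj
  have hpos : 0 < δ / 2 := by positivity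
  obtain ⟨H, Φ, h1, h2, h3, h4, h5, h6, h7, h8⟩ := hκ (δ / 2) hpos (by linarith)
  exact ⟨{
    Ω := Om (δ / 2)
    H := H
    Φ := Φ
    hs := fun _ _ => (contDiff_Om (δ / 2)).contDiffAt
    halt := fun x _ v => Om_self (δ / 2) x v
    hnd := fun _ hx _ hv h => Om_nondeg hpos.ne' hx hv h
    hcl := fun _ hx _ _ _ hu hv hw => Om_closed (δ / 2) hx hu hv hw
    hG := h1
    hH := h2
    hper := fun t x _ => h3 t x
    hΦ := fun t x _ => h4.contDiffAt
    h0 := fun x _ => h5 x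
    ham := by
      intro t x hx w hw
      rw [Om_apply]
      exact h6 t x hx w hw
    hfix := h7
    card := h8.trans ((encard_le_encard fun x hx => hz x hx.1 hx.2.1 hx.2.2).trans
      encard_zset) }, δ / 2, hpos, rfl⟩

theorem kah_base {κ : ℝ} (hκ : 0 < κ) : Kah {x | Dis.G x = 0} (fun x v => fderiv ℝ Dis.G x v = 0)
    (fun x a b => Om κ x a b) (EuclideanSpace ℂ (Fin 3)) := by
  obtain ⟨L, h1, h2⟩ := exists_three
  have h := (kah_W.prod (kah_quat hκ) (fun y w => omW_zero_left y w) (fun y w => by simp)).map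
    L h1 h2
  refine h.congr (fun x hx => ?_) (fun x _ v => ?_) (fun x _ v w => Om_apply κ x v w)
  · obtain ⟨a, b, c, d, e⟩ := (mem_iff x).1 hx
    exact ⟨⟨a, b, c⟩, d, e⟩
  · exact ⟨fun h => ⟨tanW_of h, tanB_of h⟩, fun h => fderiv_G_eq_zero h.1 h.2.1 h.2.2⟩

end Base

attribute [local instance] Vale.Agent.P265.Top.fact7

/-- The `k`-th example, of complex dimension `k + 3`. -/
def Pk (k : ℕ) : Prop :=
  ∃ (E F : Type) (_ : NormedAddCommGroup E) (_ : NormedSpace ℝ E) (_ : FiniteDimensional ℝ E)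
    (_ : NormedAddCommGroup F) (_ : NormedSpace ℝ F) (_ : FiniteDimensional ℝ F)
    (D : RegLevel E F (EuclideanSpace ℝ (Fin (2 * (k + 3))))) (A : Amb D.G (16 * 2 ^ k)),
    Kah {x | D.G x = 0} (fun x v => fderiv ℝ D.G x v = 0) (fun x a b => A.Ω x a b)
      (EuclideanSpace ℂ (Fin (k + 3))) ∧ (∃ R, ∀ x, D.G x = 0 → ‖x‖ ≤ R) ∧
    ConnectedSpace D.Carrier ∧ ∃ (N : Type) (_ : MetricSpace N) (_ : CompactSpace N)
      (C : CycCover D.Carrier N 6), Lo C (3 : ZMod 7) 1 2 (k + 2) ∧ Lo C (3 : ZMod 7) 2 4 (k + 1) ∧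
        Lo C (1 : ZMod 7) 0 1 (k + 2)

/-- Weakening the bound on the number of fixed points. -/
def Amb.mono {E F : Type} [NormedAddCommGroup E] [NormedSpace ℝ E] [NormedAddCommGroup F]
    [NormedSpace ℝ F] {G : E → F} {c d : ℕ∞} (A : Amb G c) (h : c ≤ d) : Amb G d :=
  { A with card := A.card.trans h }

theorem pk_zero : Pk 0 := by
  obtain ⟨A, κ, hκ, hA⟩ := ambBase
  refine ⟨Dis.E, Dis.F, inferInstance, inferInstance, inferInstance, inferInstance, inferInstance,
    inferInstance, Dis.RL, Amb.mono A (by norm_num), ?_, ⟨2, Dis.bound⟩,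
    inferInstanceAs (ConnectedSpace Dis.M), Top.NN,
    inferInstance, inferInstance, Top.cover, ?_, ?_, ?_⟩
  · refine (kah_base hκ).congr Subset.rfl (fun _ _ _ => Iff.rfl) fun x _ v w => ?_
    change A.Ω x v w = _
    rw [hA]
  · obtain ⟨h1, h2, h3, h4, h5⟩ := Top.betti_cover
    intro i
    match i with
    | 0 => exact_mod_cast h1
    | 1 => exact_mod_cast h3
    | 2 => exact_mod_cast h5
    | i + 3 =>
      rw [Nat.choose_eq_zero_of_lt (by omega)]
      simp
  · obtain ⟨h1, h2, h3, h4, h5⟩ := Top.betti_cover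
    intro i
    match i with
    | 0 => exact_mod_cast h2
    | 1 => exact_mod_cast h4
    | i + 2 =>
      rw [Nat.choose_eq_zero_of_lt (by omega)]
      simp
  · obtain ⟨h0, h2, h4⟩ := betti_one
    intro i
    match i with
    | 0 => exact_mod_cast h0
    | 1 => exact_mod_cast h2
    | 2 => exact_mod_cast h4
    | i + 3 =>
      rw [Nat.choose_eq_zero_of_lt (by omega)]
      simp

theorem pk_succ {k : ℕ} (h : Pk k) : Pk (k + 1) := by
  obtain ⟨E, F, _, _, _, _, _, _, D, A, hK, ⟨R, hR⟩, _, N, _, _, C, h1, h2, h3⟩ := h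
  have hd : finrank ℝ (EuclideanSpace ℝ (Fin (2 * (k + 1 + 3)))) =
      finrank ℝ (EuclideanSpace ℝ (Fin (2 * (k + 3)))) + 2 := by
    simp only [finrank_euclideanSpace_fin]
    ring
  have h7 : ((7 : ℕ) : ZMod 7) = 0 := ZMod.natCast_self 7
  have h70 : (7 : ℕ) ≠ 0 := by norm_num
  have e : (16 : ℕ∞) * 2 ^ k * 2 ≤ 16 * 2 ^ (k + 1) := le_of_eq (by ring)
  refine ⟨E × (ℝ × ℂ), F × ℝ, inferInstance, inferInstance, inferInstance, inferInstance,
    inferInstance, inferInstance, prS D _ hd, Amb.mono (A.prod ambS D.smooth contDiff_q) e, ?_,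
    ⟨max R 1, bound_prS D hd hR⟩,
    connected D hd, N × S, inferInstance, inferInstance, covS D hd C, h1.step hd h7 h70,
    h2.step hd h7 h70, h3.step hd h7 h70⟩
  obtain ⟨L, l1, l2⟩ := exists_succ (k + 3)
  have h := (hK.prod kah_sph (fun y w => by simp) (fun y w => by simp)).map L l1 l2
  exact h.congr (fun x hx => prodMap_eq_zero.1 hx) (fun x _ v => fderiv_prodMap_eq_zero
    (D.smooth.differentiable (by simp)) (contDiff_q.differentiable (by simp))) fun _ _ _ _ => rfl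

theorem pk (k : ℕ) : Pk k := by
  induction k with
  | zero => exact pk_zero
  | succ k ih => exact pk_succ ih

theorem le_SM_of {V : Type} [NormedAddCommGroup V] [NormedSpace ℝ V] [FiniteDimensional ℝ V]
    {M : Type} [TopologicalSpace M] [ChartedSpace V M] [IsManifold 𝓘(ℝ, V) ∞ M] [T2Space M]
    [CompactSpace M] : Loc.StableMorseNumber V M ≤ (SM V M : ℕ∞) := by
  obtain ⟨s, μ, hs, -, -⟩ := Vale.Agent.P265W27.exists_isLeast (V := V) (W := M)
  rw [SM_eq, hs.csInf_eq]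
  exact Vale.Agent.P265W27.stableMorseNumber_le hs.1

theorem CL.le_SM {E F V : Type} [NormedAddCommGroup E] [NormedSpace ℝ E]
    [NormedAddCommGroup F] [NormedSpace ℝ F] [NormedAddCommGroup V] [NormedSpace ℝ V]
    [FiniteDimensional ℝ E] [FiniteDimensional ℝ F] [FiniteDimensional ℝ V] (K : CL E F V)
    [CompactSpace K.M] [ConnectedSpace K.M] {N : Type} [MetricSpace N] [CompactSpace N]
    (C : CycCover K.M N 6) {k : ℕ} (h1 : Lo C (3 : ZMod 7) 1 2 (k + 2))
    (h2 : Lo C (3 : ZMod 7) 2 4 (k + 1)) (h3 : Lo C (1 : ZMod 7) 0 1 (k + 2)) :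
    (2 : ℕ∞) ^ (k + 4) + 2 ^ ((k + 1) / 4) ≤ SM V K.M :=
  (H363.le_SM (V := V) C AS.morseIneq (3 : ZMod 7) (by decide) k h1 h2 h3 ((k + 1) / 4)
    (by omega)).trans le_SM_of

theorem kaehler (n : ℕ) (hn : 3 ≤ n) :
    ∃ (M : Type) (_ : TopologicalSpace M) (_ : T2Space M) (_ : CompactSpace M)
      (_ : ConnectedSpace M) (_ : ChartedSpace (EuclideanSpace ℂ (Fin n)) M)
      (_ : IsManifold 𝓘(ℂ, EuclideanSpace ℂ (Fin n)) ω M)
      (_ : IsManifold 𝓘(ℝ, EuclideanSpace ℂ (Fin n)) ∞ M)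
      (σ : TwoForm (EuclideanSpace ℂ (Fin n)) M) (H : UnitAddCircle → M → ℝ) (φ : ℝ → M → M),
      IsKaehler σ ∧ IsHamFlow σ H φ ∧ Nondeg (EuclideanSpace ℂ (Fin n)) (φ 1) ∧
        {x | φ 1 x = x}.encard ≤ 2 ^ (n + 1) ∧
        2 ^ (n + 1) + 2 ^ ((n - 2) / 4) ≤ SM (EuclideanSpace ℂ (Fin n)) M := by
  obtain ⟨k, rfl⟩ : ∃ k, n = k + 3 := ⟨n - 3, by omega⟩
  obtain ⟨E, F, _, _, _, _, _, _, D, A, ⟨J, j1, j2, j3, j4⟩, ⟨R, hR⟩, hc, N, _, _, C, h1, h2, h3⟩ :=
    pk k
  choose! ψ U u1 u2 u3 u4 u5 using j4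
  have hd : finrank ℝ E = finrank ℝ F + finrank ℝ (EuclideanSpace ℂ (Fin (k + 3))) := by
    rw [D.dim, finrank_real_of_complex]
    simp
  let K : CL E F (EuclideanSpace ℂ (Fin (k + 3))) := ⟨D.G, D.smooth, hd, ψ, U, u1, u2, u3, u4⟩
  have hJ : K.IsHol J := ⟨j1, u5⟩
  have : CompactSpace K.M := D.compactSpace hR
  have : ConnectedSpace K.M := hc
  have h := K.le_SM C h1 h2 h3
  refine ⟨K.M, inferInstance, inferInstance, inferInstance, inferInstance, inferInstance,
    hJ.isManifold, inferInstance, K.form A, K.ham A, K.flow A, hJ.isKaehler A j2 j3,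
    K.isHamFlow A, K.nondeg_flow A, (K.encard_fix A).trans (le_of_eq (by ring)), ?_⟩
  have e5 : (k + 3 - 2) / 4 = (k + 1) / 4 := by omega
  rw [e5]
  exact_mod_cast h

theorem not_q1 : ¬ ∀ (m : ℕ) (M : Type) [TopologicalSpace M] [T2Space M] [CompactSpace M]
    [ConnectedSpace M] [ChartedSpace (EuclideanSpace ℝ (Fin m)) M]
    [IsManifold 𝓘(ℝ, EuclideanSpace ℝ (Fin m)) ∞ M]
    (σ : TwoForm (EuclideanSpace ℝ (Fin m)) M) (H : UnitAddCircle → M → ℝ) (φ : ℝ → M → M),
    IsSymplectic σ → IsHamFlow σ H φ → Nondeg (EuclideanSpace ℝ (Fin m)) (φ 1) →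
      (SM (EuclideanSpace ℝ (Fin m)) M : ℕ∞) ≤ (Fix0 φ).encard := by
  intro hq
  obtain ⟨E, F, _, _, _, _, _, _, D, A, -, ⟨R, hR⟩, hc, N, _, _, C, h1, h2, h3⟩ := pk 0
  have : Nonempty (E ≃L[ℝ] F × EuclideanSpace ℝ (Fin (2 * (0 + 3)))) :=
    ⟨ContinuousLinearEquiv.ofFinrankEq (by rw [D.dim, Module.finrank_prod])⟩
  choose! e he using fun x (hx : D.G x = 0) => exists_equiv_prod _ (D.surj x hx) D.dim
  let K : CL E F (EuclideanSpace ℝ (Fin (2 * (0 + 3)))) :=
    { G := D.G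
      smooth := D.smooth
      dim := D.dim
      ψ := fun p x => (e p x).2
      U := fun _ => univ
      isOpen := fun _ _ => isOpen_univ
      mem := fun _ _ => trivial
      sm := fun p _ _ _ => (contDiff_snd.comp (e p).contDiff).contDiffAt
      inj := fun p hp v a b => by
        have h4 : HasFDerivAt (fun x => (e p x).2) _ p :=
          ((ContinuousLinearMap.snd ℝ F _).comp (e p).toContinuousLinearMap).hasFDerivAt
        rw [h4.fderiv] at b
        have h5 : e p v = 0 := Prod.ext ((he p hp v).trans a) b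
        exact (e p).injective (h5.trans (map_zero _).symm) }
  have : CompactSpace K.M := D.compactSpace hR
  have : ConnectedSpace K.M := hc
  have h := K.le_SM C h1 h2 h3
  have h5 := hq _ K.M (K.form A) (K.ham A) (K.flow A) (K.isSymplectic_form A) (K.isHamFlow A)
    (K.nondeg_flow A)
  have h6 : (Fix0 (K.flow A)).encard ≤ 16 * 2 ^ 0 :=
    (encard_le_encard fun x hx => hx.1).trans (K.encard_fix A)
  have h7 := h.trans (h5.trans h6)
  norm_num at h7

end Vale.Agent.N265X
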